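import Vale.Agent.P106.H499.LongD

/-! # Mixed norms: majorants, summation, and the one-dimensional Sobolev inequality -/

open MeasureTheory Complex Set Filter
open scoped ENNReal NNReal ContDiff FourierTransform SchwartzMap ComplexConjugate Topology

set_option linter.all false

namespace Vale.Agent.N106

open Vale.Agent.P117 Vale.Agent.P106

/-- norm of an extended real function -/
noncomputable def lp (P : ℝ) (W : E3 → ℝ≥0∞) : ℝ≥0∞ := (∫⁻ x, W x ^ P) ^ (1 / P)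

theorem lp_mono {P : ℝ} (hP : 0 ≤ P) {V W : E3 → ℝ≥0∞} (h : ∀ x, V x ≤ W x) : lp P V ≤ lp P W := by
  unfold lp
  gcongr with x
  exact h x

theorem lp_add {P : ℝ} (hP : 1 ≤ P) {V W : E3 → ℝ≥0∞} (hV : Measurable V) (hW : Measurable W) :
    lp P (fun x => V x + W x) ≤ lp P V + lp P W :=
  ENNReal.lintegral_Lp_add_le hV.aemeasurable hW.aemeasurable hP

theorem lp_mul {P : ℝ} (hP : 0 < P) (c : ℝ≥0∞) {W : E3 → ℝ≥0∞} (hW : Measurable W) :
    lp P (fun x => c * W x) = c * lp P W := by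
  unfold lp
  simp_rw [ENNReal.mul_rpow_of_nonneg _ _ hP.le]
  rw [lintegral_const_mul _ (hW.pow_const P), ENNReal.mul_rpow_of_nonneg _ _ (by positivity), ← ENNReal.rpow_mul,
    mul_one_div_cancel hP.ne', ENNReal.rpow_one]

theorem lp_sum {P : ℝ} (hP : 1 ≤ P) {W : ℕ → E3 → ℝ≥0∞} (hW : ∀ i, Measurable (W i)) (n : ℕ) :
    lp P (fun x => ∑ i ∈ Finset.range n, W i x) ≤ ∑ i ∈ Finset.range n, lp P (W i) := by
  have hP0 : 0 < P := by linarith
  induction n with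
  | zero =>
    unfold lp
    simp [ENNReal.zero_rpow_of_pos hP0, hP0]
  | succ n ih =>
    simp_rw [Finset.sum_range_succ]
    refine (lp_add hP (Finset.measurable_sum _ fun i _ => hW i) (hW n)).trans ?_
    gcongr

theorem lp_tsum {P : ℝ} (hP : 1 ≤ P) {W : ℤ → E3 → ℝ≥0∞} (hW : ∀ l, Measurable (W l)) :
    lp P (fun x => ∑' l, W l x) ≤ ∑' l, lp P (W l) := by
  have hP0 : 0 < P := by linarith
  obtain ⟨e⟩ : Nonempty (ℕ ≃ ℤ) := ⟨(Denumerable.eqv ℤ).symm⟩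
  set S : ℕ → E3 → ℝ≥0∞ := fun n x => ∑ i ∈ Finset.range n, W (e i) x with hS
  have hSm : ∀ n, Measurable (S n) := fun n => Finset.measurable_sum _ fun i _ => hW (e i)
  have e1 : ∀ x, (∑' l, W l x) ^ P = ⨆ n, S n x ^ P := by
    intro x
    rw [← e.tsum_eq (fun l => W l x), ENNReal.tsum_eq_iSup_nat]
    exact (ENNReal.orderIsoRpow P hP0).map_iSup _
  have hmono : Monotone (fun n x => S n x ^ P) := by
    intro m n hmn x
    simp only
    apply ENNReal.rpow_le_rpow _ hP0.le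
    exact Finset.sum_le_sum_of_subset (Finset.range_mono hmn)
  set c := ∑' l, lp P (W l) with hc
  have hn : ∀ n, ∫⁻ x, S n x ^ P ≤ c ^ P := by
    intro n
    have h1 : lp P (S n) ≤ c := by
      refine (lp_sum hP (fun i => hW (e i)) n).trans ?_
      rw [hc, ← e.tsum_eq (fun l => lp P (W l))]
      exact ENNReal.sum_le_tsum _
    have h2 := ENNReal.rpow_le_rpow h1 hP0.le
    unfold lp at h2
    rwa [← ENNReal.rpow_mul, one_div_mul_cancel hP0.ne', ENNReal.rpow_one] at h2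
  unfold lp
  simp_rw [e1]
  rw [lintegral_iSup (fun n => (hSm n).pow_const P) hmono]
  calc (⨆ n, ∫⁻ x, S n x ^ P) ^ (1 / P) ≤ (c ^ P) ^ (1 / P) := by
        gcongr
        exact iSup_le hn
    _ = c := by rw [← ENNReal.rpow_mul, mul_one_div_cancel hP0.ne', ENNReal.rpow_one]

/-- the mixed norm is bounded through a measurable majorant -/
def Dom (P : ℝ) (q : ℝ≥0∞) (I : Set ℝ) (F : ℝ → E3 → ℂ) (c : ℝ≥0∞) : Prop :=
  ∃ W : E3 → ℝ≥0∞, Measurable W ∧ (∀ x, eLpNorm (fun t => F t x) q (volume.restrict I) ≤ W x) ∧ lp P W ≤ c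

theorem Dom.mono {P : ℝ} {q : ℝ≥0∞} {I : Set ℝ} {F : ℝ → E3 → ℂ} {c d : ℝ≥0∞} (h : Dom P q I F c) (hcd : c ≤ d) :
    Dom P q I F d := by
  obtain ⟨W, h1, h2, h3⟩ := h
  exact ⟨W, h1, h2, h3.trans hcd⟩

theorem Dom.add {P : ℝ} (hP : 1 ≤ P) {q : ℝ≥0∞} (hq : 1 ≤ q) {I : Set ℝ} {F G : ℝ → E3 → ℂ} {c d : ℝ≥0∞}
    (hF : ∀ x, Continuous fun t => F t x) (hG : ∀ x, Continuous fun t => G t x)
    (h : Dom P q I F c) (h' : Dom P q I G d) : Dom P q I (fun t x => F t x + G t x) (c + d) := by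
  obtain ⟨V, a1, a2, a3⟩ := h
  obtain ⟨W, b1, b2, b3⟩ := h'
  refine ⟨fun x => V x + W x, a1.add b1, fun x => ?_, (lp_add hP a1 b1).trans (add_le_add a3 b3)⟩
  exact (eLpNorm_add_le (hF x).aestronglyMeasurable (hG x).aestronglyMeasurable hq).trans (add_le_add (a2 x) (b2 x))

theorem Dom.tsum {P : ℝ} (hP : 1 ≤ P) {q : ℝ≥0∞} (hq : 1 ≤ q) {I : Set ℝ} {F : ℤ → ℝ → E3 → ℂ} {G : ℝ → E3 → ℂ}
    {c : ℤ → ℝ≥0∞} (hF : ∀ l x, Continuous fun t => F l t x) (hs : ∀ t x, HasSum (fun l => F l t x) (G t x))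
    (h : ∀ l, Dom P q I (F l) (c l)) : Dom P q I G (∑' l, c l) := by
  choose W h1 h2 h3 using h
  refine ⟨fun x => ∑' l, W l x, Measurable.ennreal_tsum h1, fun x => ?_,
    (lp_tsum hP h1).trans (ENNReal.tsum_le_tsum h3)⟩
  exact (eLpNorm_le_tsum_gen (u := fun t => G t x) (v := fun l t => F l t x)
    (fun l => (hF l x).aestronglyMeasurable) (fun t => hs t x) hq).trans (ENNReal.tsum_le_tsum fun l => h2 l x)

theorem Dom.smul {P : ℝ} (hP : 0 < P) {q : ℝ≥0∞} {I : Set ℝ} {F : ℝ → E3 → ℂ} {c : ℝ≥0∞} (a : ℂ)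
    (h : Dom P q I F c) : Dom P q I (fun t x => a * F t x) (‖a‖ₑ * c) := by
  obtain ⟨W, h1, h2, h3⟩ := h
  refine ⟨fun x => ‖a‖ₑ * W x, h1.const_mul _, fun x => ?_, ?_⟩
  · have := eLpNorm_const_smul a (fun t => F t x) q (volume.restrict I)
    refine le_trans (le_of_eq this) ?_
    exact mul_le_mul' le_rfl (h2 x)
  · rw [lp_mul hP _ h1]
    gcongr

theorem Dom.neg {P : ℝ} {q : ℝ≥0∞} {τ : ℝ} {F : ℝ → E3 → ℂ} {c : ℝ≥0∞} (hF : ∀ x, Continuous fun t => F t x)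
    (h : Dom P q (Icc (-τ) τ) F c) : Dom P q (Icc (-τ) τ) (fun t x => F (-t) x) c := by
  obtain ⟨W, h1, h2, h3⟩ := h
  refine ⟨W, h1, fun x => le_trans (le_of_eq ?_) (h2 x), h3⟩
  have hm : MeasurePreserving (fun t : ℝ => -t) (volume.restrict (Icc (-τ) τ)) (volume.restrict (Icc (-τ) τ)) := by
    have h0 : MeasurePreserving (fun t : ℝ => -t) volume volume := Measure.measurePreserving_neg volume
    have h4 := h0.restrict_preimage (s := Icc (-τ) τ) measurableSet_Icc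
    have e : (fun t : ℝ => -t) ⁻¹' Icc (-τ) τ = Icc (-τ) τ := by
      ext t
      simp only [mem_preimage, mem_Icc]
      constructor <;> rintro ⟨a, b⟩ <;> constructor <;> linarith
    rwa [e] at h4
  exact eLpNorm_comp_measurePreserving (g := fun t => F t x) (hF x).aestronglyMeasurable hm

theorem Dom.subset {P : ℝ} {q : ℝ≥0∞} {I I' : Set ℝ} {F : ℝ → E3 → ℂ} {c : ℝ≥0∞} (hI : I' ⊆ I)
    (h : Dom P q I F c) : Dom P q I' F c := by
  obtain ⟨W, h1, h2, h3⟩ := h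
  exact ⟨W, h1, fun x => (eLpNorm_mono_measure _ (Measure.restrict_mono hI le_rfl)).trans (h2 x), h3⟩

theorem Dom.le {P : ℝ} (hP : 0 < P) {q : ℝ≥0∞} {I : Set ℝ} {F : ℝ → E3 → ℂ} {c : ℝ≥0∞} (h : Dom P q I F c) :
    eLpNorm (fun x => eLpNorm (fun t => F t x) q (volume.restrict I)) (ENNReal.ofReal P) volume ≤ c := by
  obtain ⟨W, h1, h2, h3⟩ := h
  refine le_trans ?_ h3
  rw [eLpNorm_eq_lintegral_rpow_enorm_toReal (by simpa using hP) ENNReal.ofReal_ne_top, ENNReal.toReal_ofReal hP.le]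
  exact lp_mono hP.le h2

/-- the norm in time -/
noncomputable def tn (P : ℝ) (J : Set ℝ) (F : ℝ → E3 → ℂ) (x : E3) : ℝ≥0∞ := (∫⁻ t in J, ‖F t x‖ₑ ^ P) ^ (1 / P)

theorem tn_meas (P : ℝ) (J : Set ℝ) {F : ℝ → E3 → ℂ} (hF : Continuous fun z : ℝ × E3 => F z.1 z.2) :
    Measurable (tn P J F) := by
  unfold tn
  apply Measurable.pow_const
  have h1 : Measurable fun z : ℝ × E3 => ‖F z.1 z.2‖ₑ ^ P := hF.measurable.enorm.pow_const P
  exact h1.lintegral_prod_left'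

theorem lp_tn {P : ℝ} (hP : 0 < P) {J : Set ℝ} {F : ℝ → E3 → ℂ} (hF : Continuous fun z : ℝ × E3 => F z.1 z.2)
    {A : ℝ} (hA : 0 ≤ A) (h : ∫⁻ t in J, ∫⁻ x, ‖F t x‖ₑ ^ P ≤ ENNReal.ofReal (A ^ P)) :
    lp P (tn P J F) ≤ ENNReal.ofReal A := by
  unfold lp tn
  have h1 : Measurable fun z : ℝ × E3 => ‖F z.1 z.2‖ₑ ^ P := hF.measurable.enorm.pow_const P
  simp_rw [← ENNReal.rpow_mul, one_div_mul_cancel hP.ne', ENNReal.rpow_one]
  rw [← lintegral_lintegral_swap (f := fun t x => ‖F t x‖ₑ ^ P) h1.aemeasurable]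
  calc _ ≤ (ENNReal.ofReal (A ^ P)) ^ (1 / P) := by gcongr
    _ = _ := by
      rw [ENNReal.ofReal_rpow_of_nonneg (by positivity) (by positivity), ← Real.rpow_mul hA,
        mul_one_div_cancel hP.ne', Real.rpow_one]

/-- Hoelder's inequality on an interval -/
theorem holder1 {P : ℝ} (hP : 1 ≤ P) {u : ℝ → ℂ} (hu : Continuous u) {a b : ℝ} (hab : a ≤ b) :
    ∫⁻ t in Icc a b, ‖u t‖ₑ ≤ (∫⁻ t in Icc a b, ‖u t‖ₑ ^ P) ^ (1 / P) * ENNReal.ofReal ((b - a) ^ (1 - 1 / P)) := by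
  have hP0 : 0 < P := by linarith
  have hP1 : (1:ℝ≥0∞) ≤ ENNReal.ofReal P := by
    rw [← ENNReal.ofReal_one]; exact ENNReal.ofReal_le_ofReal hP
  have h := eLpNorm_le_eLpNorm_mul_rpow_measure_univ (μ := volume.restrict (Icc a b)) hP1 hu.aestronglyMeasurable
  rw [eLpNorm_one_eq_lintegral_enorm,
    eLpNorm_eq_lintegral_rpow_enorm_toReal (by simpa using hP0) ENNReal.ofReal_ne_top, ENNReal.toReal_ofReal hP0.le,
    Measure.restrict_apply_univ, Real.volume_Icc, ENNReal.toReal_one, div_one,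
    ENNReal.ofReal_rpow_of_nonneg (by linarith) (by
      have : 1 / P ≤ 1 := by rw [div_le_one hP0]; exact hP
      linarith)] at h
  exact h

theorem ftc_le {u v : ℝ → ℂ} (hd : ∀ t, HasDerivAt u (v t) t) (hv : Continuous v) {a b s t : ℝ}
    (hs : s ∈ Icc a b) (ht : t ∈ Icc a b) : ‖u t - u s‖ₑ ≤ ∫⁻ r in Icc a b, ‖v r‖ₑ := by
  have h1 : ∫ r in s..t, v r = u t - u s :=
    intervalIntegral.integral_eq_sub_of_hasDerivAt (fun r _ => hd r) (hv.intervalIntegrable _ _)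
  have h2 : ‖∫ r in s..t, v r‖ₑ ≤ ∫⁻ r in Set.uIoc s t, ‖v r‖ₑ := by
    rw [← ofReal_norm, intervalIntegral.norm_integral_eq_norm_integral_uIoc, ofReal_norm]
    exact enorm_integral_le_lintegral_enorm _
  rw [← h1]
  refine h2.trans (lintegral_mono_set ?_)
  intro r hr
  rcases mem_uIoc.1 hr with h | h
  · exact ⟨hs.1.trans h.1.le, h.2.trans ht.2⟩
  · exact ⟨ht.1.trans h.1.le, h.2.trans hs.2⟩

/-- Sobolev's inequality at the scale `1/Λ` -/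
theorem window {P : ℝ} (hP : 1 ≤ P) {u v : ℝ → ℂ} {Λ : ℝ} (hΛ : 0 < Λ) (hd : ∀ t, HasDerivAt u (Λ * v t) t)
    (hu : Continuous u) (hv : Continuous v) {J : Set ℝ} {t : ℝ} (hJ : Icc t (t + Λ⁻¹) ⊆ J) :
    ‖u t‖ₑ ≤ ENNReal.ofReal (Λ ^ (1 / P)) *
      ((∫⁻ s in J, ‖u s‖ₑ ^ P) ^ (1 / P) + (∫⁻ s in J, ‖v s‖ₑ ^ P) ^ (1 / P)) := by
  have hP0 : 0 < P := by linarith
  set δ := Λ⁻¹ with hδ
  have hδ0 : 0 < δ := by positivity
  have hab : t ≤ t + δ := by linarith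
  set A := ∫⁻ r in Icc t (t + δ), ‖v r‖ₑ with hA
  have h1 : ∀ s ∈ Icc t (t + δ), ‖u t‖ₑ ≤ ‖u s‖ₑ + ENNReal.ofReal Λ * A := by
    intro s hs
    have h2 := ftc_le hd (continuous_const.mul hv) hs (left_mem_Icc.2 hab)
    have h3 : ∫⁻ r in Icc t (t + δ), ‖(Λ:ℂ) * v r‖ₑ = ENNReal.ofReal Λ * A := by
      rw [hA, ← lintegral_const_mul' _ _ ENNReal.ofReal_ne_top]
      congr 1
      ext r
      rw [enorm_mul, ← ofReal_norm (Λ:ℂ), Complex.norm_real, Real.norm_of_nonneg hΛ.le]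
    calc ‖u t‖ₑ = ‖u s + (u t - u s)‖ₑ := by congr 1; ring
      _ ≤ ‖u s‖ₑ + ‖u t - u s‖ₑ := enorm_add_le _ _
      _ ≤ _ := by rw [← h3]; gcongr
  have h4 : ‖u t‖ₑ * ENNReal.ofReal δ ≤ (∫⁻ s in Icc t (t + δ), ‖u s‖ₑ) + A := by
    calc ‖u t‖ₑ * ENNReal.ofReal δ = ∫⁻ s in Icc t (t + δ), ‖u t‖ₑ := by
          rw [setLIntegral_const, Real.volume_Icc, add_sub_cancel_left]
      _ ≤ ∫⁻ s in Icc t (t + δ), (‖u s‖ₑ + ENNReal.ofReal Λ * A) := setLIntegral_mono' measurableSet_Icc h1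
      _ = (∫⁻ s in Icc t (t + δ), ‖u s‖ₑ) + ENNReal.ofReal Λ * A * ENNReal.ofReal δ := by
          rw [lintegral_add_right _ measurable_const, setLIntegral_const, Real.volume_Icc, add_sub_cancel_left]
      _ = _ := by
          rw [mul_right_comm, ← ENNReal.ofReal_mul hΛ.le, hδ, mul_inv_cancel₀ hΛ.ne', ENNReal.ofReal_one, one_mul]
  have h5 := holder1 hP hu hab
  have h6 := holder1 hP hv hab
  rw [add_sub_cancel_left] at h5 h6
  set a := (∫⁻ s in J, ‖u s‖ₑ ^ P) ^ (1 / P) with ha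
  set b := (∫⁻ s in J, ‖v s‖ₑ ^ P) ^ (1 / P) with hb
  have h7 : (∫⁻ s in Icc t (t + δ), ‖u s‖ₑ ^ P) ^ (1 / P) ≤ a :=
    ENNReal.rpow_le_rpow (lintegral_mono_set hJ) (by positivity)
  have h8 : (∫⁻ s in Icc t (t + δ), ‖v s‖ₑ ^ P) ^ (1 / P) ≤ b :=
    ENNReal.rpow_le_rpow (lintegral_mono_set hJ) (by positivity)
  have h9 : ‖u t‖ₑ * ENNReal.ofReal δ ≤ (a + b) * ENNReal.ofReal (δ ^ (1 - 1 / P)) := by
    refine h4.trans ?_
    rw [add_mul]
    exact add_le_add (h5.trans (by gcongr)) (h6.trans (by gcongr))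
  have e1 : δ ^ (1 - 1 / P) * Λ = Λ ^ (1 / P) := by
    rw [hδ, Real.inv_rpow hΛ.le, ← Real.rpow_neg hΛ.le]
    conv_lhs => rw [← Real.rpow_one Λ, ← Real.rpow_mul hΛ.le, one_mul]
    rw [← Real.rpow_add hΛ]
    congr 1
    ring
  calc ‖u t‖ₑ = ‖u t‖ₑ * ENNReal.ofReal δ * ENNReal.ofReal Λ := by
        rw [mul_assoc, ← ENNReal.ofReal_mul hδ0.le, hδ, inv_mul_cancel₀ hΛ.ne', ENNReal.ofReal_one, mul_one]
    _ ≤ (a + b) * ENNReal.ofReal (δ ^ (1 - 1 / P)) * ENNReal.ofReal Λ := by gcongr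
    _ = _ := by rw [mul_assoc, ← ENNReal.ofReal_mul (by positivity), e1, mul_comm]

/-- interpolation between the exponents `P` and `∞` -/
theorem interp_q {μ : Measure ℝ} {u : ℝ → ℂ} (hu : Continuous u) {P : ℝ} (hP : 0 < P) {q : ℝ≥0∞}
    (hq : ENNReal.ofReal P ≤ q) {a : ℝ} (ha : 0 < a) {W : ℝ≥0∞} (h1 : ∀ᵐ t ∂μ, ‖u t‖ₑ ≤ ENNReal.ofReal a * W)
    (h2 : (∫⁻ t, ‖u t‖ₑ ^ P ∂μ) ^ (1 / P) ≤ W) :
    eLpNorm u q μ ≤ ENNReal.ofReal (a ^ (1 - P * q.toReal⁻¹)) * W := by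
  by_cases hq' : q = ⊤
  · subst hq'
    rw [eLpNorm_exponent_top]
    simp only [ENNReal.toReal_top, inv_zero, mul_zero, sub_zero, Real.rpow_one]
    exact eLpNormEssSup_le_of_ae_enorm_bound h1
  · set Q := q.toReal with hQ
    have hPQ : P ≤ Q := by
      have := ENNReal.toReal_mono hq' hq
      rwa [ENNReal.toReal_ofReal hP.le] at this
    have hQ0 : 0 < Q := by linarith
    have hq0 : q ≠ 0 := by
      intro h
      rw [h] at hQ
      simp at hQ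
      linarith
    rw [eLpNorm_eq_lintegral_rpow_enorm_toReal hq0 hq', ← hQ]
    have h3 : ∫⁻ t, ‖u t‖ₑ ^ P ∂μ ≤ W ^ P := by
      have := ENNReal.rpow_le_rpow h2 hP.le
      rwa [← ENNReal.rpow_mul, one_div_mul_cancel hP.ne', ENNReal.rpow_one] at this
    have h4 : ∫⁻ t, ‖u t‖ₑ ^ Q ∂μ ≤ (ENNReal.ofReal a * W) ^ (Q - P) * W ^ P := by
      calc ∫⁻ t, ‖u t‖ₑ ^ Q ∂μ ≤ ∫⁻ t, (ENNReal.ofReal a * W) ^ (Q - P) * ‖u t‖ₑ ^ P ∂μ := by
            apply lintegral_mono_ae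
            filter_upwards [h1] with t ht
            have e1 : ‖u t‖ₑ ^ Q = ‖u t‖ₑ ^ (Q - P) * ‖u t‖ₑ ^ P := by
              rw [← ENNReal.rpow_add_of_nonneg _ _ (by linarith) hP.le]
              congr 1; ring
            rw [e1]
            gcongr
        _ = (ENNReal.ofReal a * W) ^ (Q - P) * ∫⁻ t, ‖u t‖ₑ ^ P ∂μ :=
            lintegral_const_mul _ (hu.measurable.enorm.pow_const P)
        _ ≤ _ := by gcongr
    have h5 : (ENNReal.ofReal a * W) ^ (Q - P) * W ^ P = ENNReal.ofReal a ^ (Q - P) * W ^ Q := by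
      rw [ENNReal.mul_rpow_of_nonneg _ _ (by linarith), mul_assoc, ← ENNReal.rpow_add_of_nonneg _ _ (by linarith) hP.le]
      congr 2; ring
    rw [h5] at h4
    calc (∫⁻ t, ‖u t‖ₑ ^ Q ∂μ) ^ (1 / Q) ≤ (ENNReal.ofReal a ^ (Q - P) * W ^ Q) ^ (1 / Q) := by gcongr
      _ = _ := by
        rw [ENNReal.mul_rpow_of_nonneg _ _ (by positivity), ← ENNReal.rpow_mul, ← ENNReal.rpow_mul,
          mul_one_div_cancel hQ0.ne', ENNReal.rpow_one, ENNReal.ofReal_rpow_of_pos ha]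
        congr 3
        field_simp

/-- a piece with frequencies of size `Λ ≥ 1` -/
theorem Dom_hi {P : ℝ} (hP : 1 ≤ P) {q : ℝ≥0∞} (hq : ENNReal.ofReal P ≤ q) {F G : ℝ → E3 → ℂ} {Λ τ : ℝ} (hΛ : 1 ≤ Λ)
    (hF : Continuous fun z : ℝ × E3 => F z.1 z.2) (hG : Continuous fun z : ℝ × E3 => G z.1 z.2)
    (hd : ∀ x t, HasDerivAt (fun s => F s x) (Λ * G t x) t) {A B : ℝ} (hA : 0 ≤ A) (hB : 0 ≤ B)
    (h1 : ∫⁻ t in Icc (-(τ + 1)) (τ + 1), ∫⁻ x, ‖F t x‖ₑ ^ P ≤ ENNReal.ofReal (A ^ P))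
    (h2 : ∫⁻ t in Icc (-(τ + 1)) (τ + 1), ∫⁻ x, ‖G t x‖ₑ ^ P ≤ ENNReal.ofReal (B ^ P)) :
    Dom P q (Icc (-τ) τ) F (ENNReal.ofReal (Λ ^ (1 / P - q.toReal⁻¹) * (A + B))) := by
  have hP0 : 0 < P := by linarith
  have hΛ0 : 0 < Λ := by linarith
  set J := Icc (-(τ + 1)) (τ + 1) with hJ
  have m1 := tn_meas P J hF
  have m2 := tn_meas P J hG
  refine ⟨fun x => ENNReal.ofReal (Λ ^ (1 / P - q.toReal⁻¹)) * (tn P J F x + tn P J G x), (m1.add m2).const_mul _,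
    fun x => ?_, ?_⟩
  · have cF : Continuous fun t => F t x := hF.comp (Continuous.prodMk_left x)
    have cG : Continuous fun t => G t x := hG.comp (Continuous.prodMk_left x)
    have e1 : Λ ^ (1 / P - q.toReal⁻¹) = (Λ ^ (1 / P)) ^ (1 - P * q.toReal⁻¹) := by
      rw [← Real.rpow_mul hΛ0.le]
      congr 1
      field_simp
    rw [e1]
    apply interp_q cF hP0 hq (by positivity)
    · filter_upwards [ae_restrict_mem measurableSet_Icc] with t ht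
      apply window hP hΛ0 (hd x) cF cG
      have : Λ⁻¹ ≤ 1 := inv_le_one_of_one_le₀ hΛ
      exact Icc_subset_Icc (by linarith [ht.1]) (by linarith [ht.2])
    · refine le_trans ?_ le_self_add
      apply ENNReal.rpow_le_rpow (lintegral_mono_set _) (by positivity)
      exact Icc_subset_Icc (by linarith) (by linarith)
  · have m3 : Measurable fun x => tn P J F x + tn P J G x := m1.add m2
    rw [lp_mul hP0 _ m3, ENNReal.ofReal_mul (by positivity), ENNReal.ofReal_add hA hB]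
    gcongr
    exact (lp_add hP m1 m2).trans (add_le_add (lp_tn hP0 hF hA h1) (lp_tn hP0 hG hB h2))

theorem Dom_sup {P : ℝ} (hP : 0 < P) {q : ℝ≥0∞} (hq : 1 ≤ q) {F : ℝ → E3 → ℂ} {τ : ℝ} (hτ : 1 ≤ τ)
    {V : E3 → ℝ≥0∞} (hV : Measurable V) (h : ∀ x, ∀ t ∈ Icc (-τ) τ, ‖F t x‖ₑ ≤ V x) {c : ℝ≥0∞} (hc : lp P V ≤ c) :
    Dom P q (Icc (-τ) τ) F (ENNReal.ofReal (2 * τ) * c) := by
  refine ⟨fun x => ENNReal.ofReal (2 * τ) * V x, hV.const_mul _, fun x => ?_, ?_⟩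
  · have h1 : ∀ᵐ t ∂(volume.restrict (Icc (-τ) τ)), ‖F t x‖ₑ ≤ V x := by
      filter_upwards [ae_restrict_mem measurableSet_Icc] with t ht using h x t ht
    refine (eLpNorm_le_of_ae_enorm_bound h1).trans ?_
    rw [smul_eq_mul, mul_comm, Measure.restrict_apply_univ, Real.volume_Icc]
    refine mul_le_mul' ?_ le_rfl
    have e : τ - -τ = 2 * τ := by ring
    rw [e]
    have h2 : (1:ℝ≥0∞) ≤ ENNReal.ofReal (2 * τ) := by
      rw [← ENNReal.ofReal_one]; exact ENNReal.ofReal_le_ofReal (by linarith)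
    have h3 : q.toReal⁻¹ ≤ 1 := by
      by_cases hq' : q = ⊤
      · simp [hq']
      · apply inv_le_one_of_one_le₀
        have := ENNReal.toReal_mono hq' hq
        simpa using this
    calc ENNReal.ofReal (2 * τ) ^ q.toReal⁻¹ ≤ ENNReal.ofReal (2 * τ) ^ (1:ℝ) :=
          ENNReal.rpow_le_rpow_of_exponent_le h2 h3
      _ = _ := ENNReal.rpow_one _
  · rw [lp_mul hP _ hV]
    gcongr

/-- a function dominated by a time integral -/
theorem Dom_int {P : ℝ} (hP : 1 ≤ P) {q : ℝ≥0∞} (hq : 1 ≤ q) {F G : ℝ → E3 → ℂ} {τ : ℝ} (hτ : 1 ≤ τ)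
    (hG : Continuous fun z : ℝ × E3 => G z.1 z.2)
    (h : ∀ x, ∀ t ∈ Icc (-τ) τ, ‖F t x‖ₑ ≤ ∫⁻ s in Icc (-τ) τ, ‖G s x‖ₑ) {B : ℝ} (hB : 0 ≤ B)
    (h2 : ∫⁻ t in Icc (-τ) τ, ∫⁻ x, ‖G t x‖ₑ ^ P ≤ ENNReal.ofReal (B ^ P)) :
    Dom P q (Icc (-τ) τ) F (ENNReal.ofReal (4 * τ ^ 2 * B)) := by
  have hP0 : 0 < P := by linarith
  have m2 := tn_meas P (Icc (-τ) τ) hG
  have h3 := Dom_sup hP0 hq hτ (F := F) (V := fun x => ENNReal.ofReal (2 * τ) * tn P (Icc (-τ) τ) G x)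
    (m2.const_mul _) (fun x t ht => by
      have cG : Continuous fun t => G t x := hG.comp (Continuous.prodMk_left x)
      refine (h x t ht).trans ((holder1 hP cG (by linarith)).trans ?_)
      rw [mul_comm]
      unfold tn
      gcongr
      have e : τ - -τ = 2 * τ := by ring
      rw [e]
      calc (2 * τ) ^ (1 - 1 / P) ≤ (2 * τ) ^ (1:ℝ) := by
            apply Real.rpow_le_rpow_of_exponent_le (by linarith)
            have : 0 ≤ 1 / P := by positivity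
            linarith
        _ = _ := Real.rpow_one _) (c := ENNReal.ofReal (2 * τ) * ENNReal.ofReal B) (by
      rw [lp_mul hP0 _ m2]
      gcongr
      exact lp_tn hP0 hG hB h2)
  refine h3.mono (le_of_eq ?_)
  rw [← ENNReal.ofReal_mul (by linarith), ← ENNReal.ofReal_mul (by linarith)]
  congr 1
  ring

end Vale.Agent.N106
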