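import Vale.Agent.N106.A

/-! # Mixed norm estimates for the half wave evolution -/

open MeasureTheory Complex Set Filter
open scoped ENNReal NNReal ContDiff FourierTransform SchwartzMap ComplexConjugate Topology

set_option linter.all false

namespace Vale.Agent.N106

open Vale.Agent.P117 Vale.Agent.P106 Vale.Agent.P106.H499

theorem fi_congr {a b : E3 → ℂ} (h : ∀ ξ, a ξ = b ξ) (x : E3) : 𝓕⁻ a x = 𝓕⁻ b x := by
  rw [show a = b from funext h]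

theorem cont_t {F : ℝ → E3 → ℂ} (hF : Continuous fun z : ℝ × E3 => F z.1 z.2) (x : E3) : Continuous fun t => F t x :=
  hF.comp (Continuous.prodMk_left x)

theorem L1_dil {Λ : ℝ} (hΛ : 0 < Λ) (M : E3 → ℂ) : ∫⁻ w, ‖𝓕⁻ (dil Λ M) w‖ₑ = ∫⁻ w, ‖𝓕⁻ M w‖ₑ := by
  have e1 : ∀ w, ‖𝓕⁻ (dil Λ M) w‖ₑ = ENNReal.ofReal (Λ ^ 3) * ‖𝓕⁻ M (Λ • w)‖ₑ := by
    intro w
    rw [Real.fourierInv_eq_fourier_neg, fourier_dil hΛ, Real.fourierInv_eq_fourier_neg, smul_neg, enorm_mul,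
      ← ofReal_norm ((Λ ^ 3 : ℝ) : ℂ), Complex.norm_real, Real.norm_of_nonneg (by positivity)]
  simp_rw [e1]
  rw [lintegral_const_mul' _ _ ENNReal.ofReal_ne_top, lintegral_smul3 hΛ (fun y => ‖𝓕⁻ M y‖ₑ), ← mul_assoc,
    ← ENNReal.ofReal_mul (by positivity), mul_inv_cancel₀ (by positivity), ENNReal.ofReal_one, one_mul]

theorem fourier_bdd_int {M g h : E3 → ℂ} (hM : Continuous M) (hc : HasCompactSupport M) (hg : Adm volume g)
    (e : ∀ ξ, 𝓕 h ξ = M ξ * 𝓕 g ξ) : Integrable (𝓕 h) := by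
  have e1 : 𝓕 h = fun ξ => M ξ * 𝓕 g ξ := funext e
  rw [e1]
  exact (hM.mul (continuous_fourier hg.int)).integrable_of_hasCompactSupport hc.mul_right

/-- dyadic multipliers -/
theorem kernel (γ : ℝ) {Ψ : E3 → ℂ} (hΨ : ContDiff ℝ ∞ Ψ) : ∃ C : ℝ, 0 ≤ C ∧ ∀ Λ : ℝ, 0 < Λ → ∀ g : E3 → ℂ,
    Adm volume g → ∃ h : E3 → ℂ, Adm volume h ∧ Integrable (𝓕 h) ∧
      (∀ ξ, 𝓕 h ξ = Ψ (Λ⁻¹ • ξ) * q2 (‖ξ‖ / Λ) * bf γ ‖ξ‖ * 𝓕 g ξ) ∧
      (∀ x, h x = 𝓕⁻ (fun ξ => Ψ (Λ⁻¹ • ξ) * q2 (‖ξ‖ / Λ) * bf γ ‖ξ‖ * 𝓕 g ξ) x) ∧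
      ∀ p : ℝ≥0∞, 1 ≤ p → nrm p h volume ≤ C * (max 1 Λ) ^ (-γ) * nrm p g volume := by
  have c1 : ContDiff ℝ ∞ (fun z : E3 × ℝ => Ψ z.1 * symB γ z) := (hΨ.comp contDiff_fst).mul (contDiff_symB γ)
  have c2 : ContDiff ℝ ∞ (fun z : E3 × ℝ => Ψ z.1 * symG γ z) := (hΨ.comp contDiff_fst).mul (contDiff_symG γ)
  obtain ⟨B1, hB1, h1⟩ := paramL1 c1 2 (fun η κ h => symB_supp (right_ne_zero_of_mul h))
  obtain ⟨B2, hB2, h2⟩ := paramL1 c2 2 (fun η κ h => symG_supp (right_ne_zero_of_mul h))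
  refine ⟨B1 + B2, by positivity, ?_⟩
  intro Λ hΛ g hg
  have hpi := Real.pi_pos
  have hn : ∀ ξ : E3, ‖Λ⁻¹ • ξ‖ = ‖ξ‖ / Λ := by
    intro ξ
    rw [norm_smulE (inv_pos.2 hΛ), div_eq_inv_mul]
  obtain ⟨M0, k1, k2, k3, k4⟩ : ∃ M0 : E3 → ℂ, ContDiff ℝ ∞ M0 ∧ (∀ η, M0 η ≠ 0 → ‖η‖ ≤ 2) ∧
      (∀ ξ, dil Λ M0 ξ = Ψ (Λ⁻¹ • ξ) * q2 (‖ξ‖ / Λ) * bf γ ‖ξ‖) ∧
      ∫⁻ w, ‖𝓕⁻ M0 w‖ₑ ≤ ENNReal.ofReal ((B1 + B2) * (max 1 Λ) ^ (-γ)) := by
    rcases le_total 1 Λ with h | h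
    · refine ⟨fun η => ((Λ ^ (-γ) : ℝ) : ℂ) * (Ψ η * symB γ (η, Λ⁻¹)),
        contDiff_const.mul (c1.comp (f := fun η : E3 => (η, Λ⁻¹)) (by fun_prop)),
        fun η hη => symB_supp (right_ne_zero_of_mul (right_ne_zero_of_mul hη)), ?_, ?_⟩
      · intro ξ
        unfold dil symB
        simp only
        rw [hn]
        have e2 : bf γ ‖ξ‖ = ((Λ ^ (-γ) : ℝ) : ℂ) *
            (((Λ⁻¹ ^ 2 + 4 * Real.pi ^ 2 * (‖ξ‖ / Λ) ^ 2) ^ (-γ / 2) : ℝ) : ℂ) := by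
          unfold bf
          rw [← Complex.ofReal_mul]
          congr 1
          have e3 : 1 + 4 * Real.pi ^ 2 * ‖ξ‖ ^ 2 = Λ ^ 2 * (Λ⁻¹ ^ 2 + 4 * Real.pi ^ 2 * (‖ξ‖ / Λ) ^ 2) := by
            field_simp
          rw [e3, Real.mul_rpow (by positivity) (by positivity)]
          congr 1
          have : Λ ^ 2 = Λ ^ (2:ℝ) := by exact_mod_cast (Real.rpow_natCast Λ 2).symm
          rw [this, ← Real.rpow_mul hΛ.le]
          congr 1; ring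
        rw [e2]
        ring
      · have e4 : ∀ w, ‖𝓕⁻ (fun η : E3 => ((Λ ^ (-γ) : ℝ) : ℂ) * (Ψ η * symB γ (η, Λ⁻¹))) w‖ₑ =
            ENNReal.ofReal (Λ ^ (-γ)) * ‖𝓕⁻ (fun η : E3 => Ψ η * symB γ (η, Λ⁻¹)) w‖ₑ := by
          intro w
          rw [fi_const, enorm_mul, ← ofReal_norm ((Λ ^ (-γ) : ℝ) : ℂ), Complex.norm_real,
            Real.norm_of_nonneg (by positivity)]
        simp_rw [e4]
        rw [lintegral_const_mul' _ _ ENNReal.ofReal_ne_top, max_eq_right h, mul_comm (B1 + B2),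
          ENNReal.ofReal_mul (by positivity)]
        refine mul_le_mul' le_rfl ((h1 Λ⁻¹ ⟨by positivity, inv_le_one_of_one_le₀ h⟩).trans ?_)
        exact ENNReal.ofReal_le_ofReal (by linarith)
    · refine ⟨fun η => Ψ η * symG γ (η, Λ), c2.comp (f := fun η : E3 => (η, Λ)) (by fun_prop),
        fun η hη => symG_supp (right_ne_zero_of_mul hη), ?_, ?_⟩
      · intro ξ
        unfold dil symG bf
        simp only
        rw [hn]
        have e3 : Λ ^ 2 * (‖ξ‖ / Λ) ^ 2 = ‖ξ‖ ^ 2 := by field_simp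
        rw [e3]
        ring
      · rw [max_eq_left h, Real.one_rpow, mul_one]
        exact (h2 Λ ⟨hΛ.le, h⟩).trans (ENNReal.ofReal_le_ofReal (by linarith))
  have k5 : ContDiff ℝ ∞ (dil Λ M0) := k1.comp (f := fun y : E3 => Λ⁻¹ • y) (by fun_prop)
  have k6 : HasCompactSupport (dil Λ M0) := by
    apply compact_of_supp (R := 2 * Λ)
    intro ξ hξ
    have := k2 _ hξ
    rw [hn, div_le_iff₀ hΛ] at this
    exact this
  obtain ⟨s1, s2, s3, s4⟩ := smop_props k5 k6 hg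
  refine ⟨_, s1, fourier_bdd_int k5.continuous k6 hg s2, fun ξ => by rw [s2, k3], fun x => ?_, fun p hp => ?_⟩
  · simp_rw [k3]
  · exact s3 _ (by positivity) (by rw [L1_dil hΛ]; exact k4) p hp

theorem uu_deriv {β : ℝ} (hβ : 0 ≤ β) {h0 h1 : E3 → ℂ} {c : ℝ} (i0 : Integrable (𝓕 h0)) (i1 : Integrable (𝓕 h1))
    (e : ∀ ξ, (c:ℂ) * 𝓕 h1 ξ = 2 * Real.pi * I * (‖ξ‖ : ℝ) * 𝓕 h0 ξ) (x : E3) (t : ℝ) :
    HasDerivAt (fun s => uu β h0 s x) (c * uu β h1 t x) t := by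
  unfold uu
  rw [← fi_const]
  simp_rw [Real.fourierInv_eq']
  have hm : ∀ s : ℝ, AEStronglyMeasurable (fun ξ : E3 => cexp ((2 * Real.pi * inner ℝ ξ x : ℝ) * I)) volume :=
    fun s => Continuous.aestronglyMeasurable (by fun_prop)
  refine (hasDerivAt_integral_of_dominated_loc_of_deriv_le (s := univ) (bound := fun ξ => |c| * ‖𝓕 h1 ξ‖)
    (F := fun (s : ℝ) (ξ : E3) => cexp ((2 * Real.pi * inner ℝ ξ x : ℝ) * I) • (sm β s ξ * 𝓕 h0 ξ))
    (F' := fun (s : ℝ) (ξ : E3) => cexp ((2 * Real.pi * inner ℝ ξ x : ℝ) * I) • ((c:ℂ) * (sm β s ξ * 𝓕 h1 ξ)))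
    univ_mem ?_ ?_ ?_ ?_ (i1.norm.const_mul _) ?_).2
  · exact Eventually.of_forall fun s => (hm s).smul ((measurable_sm β s).aestronglyMeasurable.mul i0.1)
  · refine Integrable.mono' i0.norm ((hm t).smul ((measurable_sm β t).aestronglyMeasurable.mul i0.1)) ?_
    filter_upwards with ξ
    rw [norm_smul, Complex.norm_exp_ofReal_mul_I, one_mul, norm_mul]
    exact mul_le_of_le_one_left (norm_nonneg _) (norm_sm_le hβ t ξ)
  · exact (hm t).smul (aestronglyMeasurable_const.mul ((measurable_sm β t).aestronglyMeasurable.mul i1.1))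
  · filter_upwards with ξ s _
    rw [norm_smul, Complex.norm_exp_ofReal_mul_I, one_mul, norm_mul, norm_mul, Complex.norm_real, Real.norm_eq_abs]
    gcongr
    exact mul_le_of_le_one_left (norm_nonneg _) (norm_sm_le hβ s ξ)
  · filter_upwards with ξ s _
    have d1 : HasDerivAt (fun r : ℝ => (2 * Real.pi * I * (r * ‖ξ‖ : ℝ) : ℂ)) (2 * Real.pi * I * (‖ξ‖ : ℝ)) s := by
      have d0 : HasDerivAt (fun r : ℝ => r * ‖ξ‖) ‖ξ‖ s := by simpa using (hasDerivAt_id s).mul_const ‖ξ‖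
      exact d0.ofReal_comp.const_mul _
    have d2 := ((d1.cexp.const_mul (bf β ‖ξ‖)).mul_const (𝓕 h0 ξ)).const_smul
      (cexp ((2 * Real.pi * inner ℝ ξ x : ℝ) * I))
    convert d2 using 1
    · rfl
    · congr 1
      unfold sm
      linear_combination (bf β ‖ξ‖ * cexp (2 * Real.pi * I * (s * ‖ξ‖ : ℝ))) * e ξ

/-- symbol of the time derivative -/
noncomputable def X2 (η : E3) : ℂ := 2 * Real.pi * I * (‖η‖ : ℝ) * q0 ‖η‖

theorem contDiff_X2 : ContDiff ℝ ∞ X2 := by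
  have h1 : ContDiff ℝ ∞ (fun r : ℝ => 2 * Real.pi * I * (r : ℂ) * q0 r) :=
    (contDiff_const.mul Complex.ofRealCLM.contDiff).mul contDiff_q0
  exact contDiff_radial h1 (by norm_num : (0:ℝ) < 3/8) (fun t ht => by rw [q0_left ht, mul_zero])

theorem bf_add (a b r : ℝ) : bf (a + b) r = bf a r * bf b r := by
  unfold bf
  have hpi := Real.pi_pos
  rw [← Complex.ofReal_mul, ← Real.rpow_add (by positivity)]
  congr 2
  ring

theorem q0_q2 (r : ℝ) : q0 r * q2 r = q0 r := by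
  by_cases h : q0 r = 0
  · rw [h, zero_mul]
  · rw [q2_one (q0_supp h).1 (q0_supp h).2, mul_one]

theorem q0_div (ξ : E3) {Λ : ℝ} (hΛ : 0 < Λ) : q0 (‖ξ‖ / Λ) = chd ((4 * ‖ξ‖ / 3) / Λ) := by
  unfold q0
  congr 1
  field_simp

theorem zpow_le_kz {e r : ℝ} {l : ℤ} (hl : 0 < l) (hr : (2:ℝ) ^ e ≤ r) : ((2:ℝ) ^ l) ^ e ≤ kz r l := by
  unfold kz
  obtain ⟨k, hk⟩ := Int.eq_ofNat_of_zero_le hl.le
  rw [hk, zpow_natCast, Int.natAbs_natCast, ← Real.rpow_natCast, ← Real.rpow_mul (by norm_num), mul_comm,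
    Real.rpow_mul (by norm_num), Real.rpow_natCast]
  exact pow_le_pow_left₀ (by positivity) hr _

theorem zpow_le_kz' {r : ℝ} {l : ℤ} (hl : ¬ 0 < l) (hr : 1 / 2 ≤ r) : (2:ℝ) ^ l ≤ kz r l := by
  unfold kz
  obtain ⟨k, hk⟩ := Int.eq_ofNat_of_zero_le (show 0 ≤ -l by omega)
  have hl' : l = -(k:ℤ) := by omega
  rw [hl', Int.natAbs_neg, Int.natAbs_natCast, zpow_neg, zpow_natCast, ← inv_pow]
  apply pow_le_pow_left₀ (by norm_num)
  exact le_trans (by norm_num) hr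

/-- the local smoothing estimate on symmetric time intervals -/
def Both (P β : ℝ) : Prop := ∀ τ : ℝ, 1 ≤ τ → ∃ C : ℝ, 0 ≤ C ∧ ∀ g : E3 → ℂ, Adm volume g → Integrable (𝓕 g) →
    ∫⁻ t in Icc (-τ) τ, ∫⁻ x : E3, ‖uu β g t x‖ₑ ^ P ≤ ENNReal.ofReal ((C * nrm (ENNReal.ofReal P) g volume) ^ P)

theorem one_le_ofReal {P : ℝ} (hP : 1 ≤ P) : (1:ℝ≥0∞) ≤ ENNReal.ofReal P := by
  rw [← ENNReal.ofReal_one]; exact ENNReal.ofReal_le_ofReal hP

theorem pow_mono {P a b : ℝ} (hP : 0 ≤ P) (ha : 0 ≤ a) (h : a ≤ b) :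
    ENNReal.ofReal (a ^ P) ≤ ENNReal.ofReal (b ^ P) := ENNReal.ofReal_le_ofReal (Real.rpow_le_rpow ha h hP)

/-- the dyadic pieces -/
theorem piece {P β : ℝ} (hP : 1 ≤ P) {q : ℝ≥0∞} (hq : ENNReal.ofReal P ≤ q) (hβ : 0 ≤ β) (hB : Both P β) (α : ℝ)
    {τ : ℝ} (hτ : 1 ≤ τ) : ∃ C : ℝ, 0 ≤ C ∧ ∀ (l : ℤ) (g : E3 → ℂ), Adm volume g →
    Dom P q (Icc (-τ) τ) (pp α g l) (ENNReal.ofReal (C * (if 0 < l then ((2:ℝ) ^ l) ^ (β + 1 / P - q.toReal⁻¹ - α)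
      else (2:ℝ) ^ l) * nrm (ENNReal.ofReal P) g volume)) := by
  obtain ⟨C0, hC0, k0⟩ := kernel (α - β) contDiff_X0
  obtain ⟨C1, hC1, k1⟩ := kernel (α - β) contDiff_X2
  obtain ⟨D, hD, hb⟩ := hB (τ + 1) (by linarith)
  have hP1 := one_le_ofReal hP
  refine ⟨D * (C0 + C1) + 4 * τ ^ 2 * (D * C1), by positivity, ?_⟩
  intro l g hg
  set Λ : ℝ := (2:ℝ) ^ l with hΛ
  have hΛ0 : 0 < Λ := by positivity
  obtain ⟨h0, a1, a2, a3, -, a4⟩ := k0 Λ hΛ0 g hg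
  obtain ⟨h1, b1, b2, b3, -, b4⟩ := k1 Λ hΛ0 g hg
  have a5 := a4 _ hP1
  have b5 := b4 _ hP1
  set n := nrm (ENNReal.ofReal P) g volume with hn
  have n0 : 0 ≤ n := nrm_nonneg
  have m0 : 0 ≤ nrm (ENNReal.ofReal P) h0 volume := nrm_nonneg
  have m1 : 0 ≤ nrm (ENNReal.ofReal P) h1 volume := nrm_nonneg
  have hnn : ∀ ξ : E3, ‖Λ⁻¹ • ξ‖ = ‖ξ‖ / Λ := by
    intro ξ
    rw [norm_smulE (inv_pos.2 hΛ0), div_eq_inv_mul]
  have e0 : ∀ ξ, 𝓕 h0 ξ = chd ((4 * ‖ξ‖ / 3) / Λ) * bf (α - β) ‖ξ‖ * 𝓕 g ξ := by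
    intro ξ
    rw [a3]
    unfold X0
    rw [hnn, q0_q2, q0_div ξ hΛ0]
  have e1 : ∀ ξ, (Λ:ℂ) * 𝓕 h1 ξ = 2 * Real.pi * I * (‖ξ‖ : ℝ) * 𝓕 h0 ξ := by
    intro ξ
    rw [b3, a3]
    unfold X0 X2
    rw [hnn]
    have : (Λ:ℂ) ≠ 0 := by exact_mod_cast hΛ0.ne'
    push_cast
    field_simp
  have hd := uu_deriv hβ a2 b2 e1
  have c0 := cont_uu hβ a2
  have c1 := cont_uu hβ b2
  have hbf : ∀ r, bf α r = bf β r * bf (α - β) r := by
    intro r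
    rw [← bf_add]
    congr 1
    ring
  by_cases hl : 0 < l
  · have hΛ1 : 1 ≤ Λ := by rw [hΛ]; exact one_le_zpow₀ (by norm_num) hl.le
    rw [max_eq_right hΛ1] at a5 b5
    have e2 : pp α g l = uu β h0 := by
      ext t x
      unfold pp uu
      apply fi_congr
      intro ξ
      rw [e0]
      unfold pm sm
      rw [if_pos hl, hbf]
      ring
    rw [e2, if_pos hl]
    have h3 := Dom_hi hP hq hΛ1 c0 c1 hd (A := D * (C0 * Λ ^ (-(α - β)) * n)) (B := D * (C1 * Λ ^ (-(α - β)) * n))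
      (by positivity) (by positivity)
      ((hb h0 a1 a2).trans (pow_mono (by linarith) (by positivity) (by gcongr)))
      ((hb h1 b1 b2).trans (pow_mono (by linarith) (by positivity) (by gcongr)))
    refine h3.mono (ENNReal.ofReal_le_ofReal ?_)
    have e3 : Λ ^ (β + 1 / P - q.toReal⁻¹ - α) = Λ ^ (1 / P - q.toReal⁻¹) * Λ ^ (-(α - β)) := by
      rw [← Real.rpow_add hΛ0]
      congr 1
      ring
    rw [e3]
    have : 0 ≤ 4 * τ ^ 2 * (D * C1) * (Λ ^ (1 / P - q.toReal⁻¹) * Λ ^ (-(α - β))) * n := by positivity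
    nlinarith
  · have hΛ1 : Λ ≤ 1 := by rw [hΛ]; exact zpow_le_one_of_nonpos₀ (by norm_num) (not_lt.1 hl)
    rw [max_eq_left hΛ1, Real.one_rpow, mul_one] at a5 b5
    have e2 : ∀ t x, pp α g l t x = uu β h0 t x - uu β h0 0 x := by
      intro t x
      unfold pp uu
      have i0 : ∀ s, Integrable fun ξ => sm β s ξ * 𝓕 h0 ξ := fun s =>
        a2.bdd_mul (c := 1) (measurable_sm β s).aestronglyMeasurable (Eventually.of_forall fun ξ => norm_sm_le hβ s ξ)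
      rw [← fi_sub (i0 t) (i0 0)]
      apply fi_congr
      intro ξ
      rw [e0]
      unfold pm sm
      rw [if_neg hl, hbf]
      simp only [zero_mul, ofReal_zero, mul_zero, Complex.exp_zero]
      ring
    rw [if_neg hl]
    have c2 : Continuous fun z : ℝ × E3 => (Λ:ℂ) * uu β h1 z.1 z.2 := continuous_const.mul c1
    have h3 := Dom_int hP (hP1.trans hq) hτ (F := pp α g l) (G := fun t x => (Λ:ℂ) * uu β h1 t x) c2
      (fun x t ht => by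
        rw [e2]
        exact ftc_le (u := fun s => uu β h0 s x) (hd x) (continuous_const.mul (cont_t c1 x))
          (s := 0) ⟨by linarith, by linarith⟩ ht)
      (B := Λ * (D * (C1 * n))) (by positivity) (by
        have e4 : ∀ t x, ‖(Λ:ℂ) * uu β h1 t x‖ₑ ^ P = ENNReal.ofReal (Λ ^ P) * ‖uu β h1 t x‖ₑ ^ P := by
          intro t x
          rw [enorm_mul, ENNReal.mul_rpow_of_nonneg _ _ (by linarith), ← ofReal_norm (Λ:ℂ), Complex.norm_real,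
            Real.norm_of_nonneg hΛ0.le, ENNReal.ofReal_rpow_of_pos hΛ0]
        simp_rw [e4, lintegral_const_mul' _ _ ENNReal.ofReal_ne_top]
        rw [Real.mul_rpow hΛ0.le (by positivity), ENNReal.ofReal_mul (by positivity)]
        refine mul_le_mul' le_rfl ((lintegral_mono_set (Icc_subset_Icc (by linarith) (by linarith))).trans
          ((hb h1 b1 b2).trans (pow_mono (by linarith) (by positivity) (by gcongr)))))
    refine h3.mono (ENNReal.ofReal_le_ofReal ?_)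
    have : 0 ≤ D * (C0 + C1) * Λ * n := by positivity
    nlinarith

theorem low_op (α : ℝ) : ∃ C : ℝ, 0 ≤ C ∧ ∀ g : E3 → ℂ, Adm volume g → Adm volume (lo α g) ∧ Integrable (𝓕 (lo α g)) ∧
    (∀ ξ, 𝓕 (lo α g) ξ = symL α (ξ, 0) * 𝓕 g ξ) ∧ ∀ p : ℝ≥0∞, 1 ≤ p → nrm p (lo α g) volume ≤ C * nrm p g volume := by
  obtain ⟨C3, hC3, hL⟩ := paramL1 (contDiff_symL α) 2 (fun η κ h => symL_supp h)
  refine ⟨C3, hC3, fun g hg => ?_⟩
  have k1 : ContDiff ℝ ∞ (fun ξ : E3 => symL α (ξ, 0)) := (contDiff_symL α).comp (by fun_prop)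
  have k2 : HasCompactSupport (fun ξ : E3 => symL α (ξ, 0)) := compact_of_supp (fun η h => symL_supp h)
  obtain ⟨s1, s2, s3, s4⟩ := smop_props k1 k2 hg
  exact ⟨s1, fourier_bdd_int k1.continuous k2 hg s2, s2, s3 C3 hC3 (hL 0 ⟨le_rfl, zero_le_one⟩)⟩

theorem tsum_kz {r K n : ℝ} (hr0 : 0 ≤ r) (hr1 : r < 1) (hK : 0 ≤ K) (hn : 0 ≤ n) :
    ∑' l : ℤ, ENNReal.ofReal (K * kz r l * n) = ENNReal.ofReal (K * (∑' l : ℤ, kz r l) * n) := by
  rw [← ENNReal.ofReal_tsum_of_nonneg (fun l => by have := kz_nonneg hr0 l; positivity)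
    (((summable_kz hr0 hr1).mul_left _).mul_right _), tsum_mul_right, tsum_mul_left]

/-- **mixed norm estimate** -/
theorem mixed_uu {P β α : ℝ} (hP : 1 ≤ P) {q : ℝ≥0∞} (hq : ENNReal.ofReal P ≤ q) (hβ : 0 ≤ β) (hB : Both P β)
    (hα0 : 0 ≤ α) (hα : β + 1 / P - q.toReal⁻¹ < α) {τ : ℝ} (hτ : 1 ≤ τ) :
    ∃ C : ℝ, 0 ≤ C ∧ ∀ g : E3 → ℂ, Adm volume g → Integrable (𝓕 g) →
    Dom P q (Icc (-τ) τ) (uu α g) (ENNReal.ofReal (C * nrm (ENNReal.ofReal P) g volume)) := by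
  obtain ⟨C1, hC1, h1⟩ := piece hP hq hβ hB α hτ
  obtain ⟨C3, hC3, h3⟩ := low_op α
  have hP1 := one_le_ofReal hP
  have hP0 : 0 < P := by linarith
  set r : ℝ := max (1/2) ((2:ℝ) ^ (β + 1 / P - q.toReal⁻¹ - α)) with hr
  have hr0 : 0 ≤ r := le_max_of_le_left (by norm_num)
  have hr1 : r < 1 := by
    apply max_lt (by norm_num)
    apply Real.rpow_lt_one_of_one_lt_of_neg (by norm_num) (by linarith)
  set S : ℝ := ∑' l : ℤ, kz r l with hSd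
  have hS0 : 0 ≤ S := tsum_nonneg (kz_nonneg hr0)
  refine ⟨C1 * S + 2 * τ * C3, by positivity, ?_⟩
  intro g hg hF
  set n : ℝ := nrm (ENNReal.ofReal P) g volume with hn
  have hn0 : 0 ≤ n := nrm_nonneg
  have hp : ∀ l : ℤ, Dom P q (Icc (-τ) τ) (pp α g l) (ENNReal.ofReal (C1 * kz r l * n)) := by
    intro l
    refine (h1 l g hg).mono (ENNReal.ofReal_le_ofReal ?_)
    gcongr
    split_ifs with hl
    · exact zpow_le_kz hl (le_max_right _ _)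
    · exact zpow_le_kz' hl (le_max_left _ _)
  have cu := cont_uu hα0 hF
  have d1 := Dom.tsum hP (hP1.trans hq) (G := fun t x => uu α g t x - lo α g x)
    (fun l x => cont_t (cont_pp hα0 l hF) x) (fun t x => pp_hasSum hα0 hF t x) hp
  rw [tsum_kz hr0 hr1 hC1 hn0] at d1
  obtain ⟨s1, -, -, s3⟩ := h3 g hg
  have d2 := Dom_sup hP0 (hP1.trans hq) hτ (F := fun t x => lo α g x) (V := fun x => ‖lo α g x‖ₑ)
    s1.meas.enorm (fun x t ht => le_rfl) (c := ENNReal.ofReal (C3 * n)) (by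
      unfold lp
      calc _ ≤ (ENNReal.ofReal ((C3 * n) ^ P)) ^ (1 / P) := by
            gcongr
            exact pow_nrm_le hP s1 (s3 _ hP1)
        _ = _ := by
          rw [ENNReal.ofReal_rpow_of_nonneg (by positivity) (by positivity), ← Real.rpow_mul (by positivity),
            mul_one_div_cancel hP0.ne', Real.rpow_one])
  have d3 := Dom.add hP (hP1.trans hq) (F := fun t x => uu α g t x - lo α g x) (G := fun t x => lo α g x)
    (fun x => (cont_t cu x).sub continuous_const)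
    (fun x => continuous_const) d1 d2
  have e1 : (fun t x => uu α g t x - lo α g x + lo α g x) = uu α g := by
    ext t x
    ring
  rw [e1] at d3
  refine d3.mono (le_of_eq ?_)
  rw [← ENNReal.ofReal_mul (by linarith), ← ENNReal.ofReal_add (by positivity) (by positivity)]
  congr 1
  ring

end Vale.Agent.N106
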