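import Vale.Agent.N106.B

/-! # Mixed norm estimates for the wave equation -/

open MeasureTheory Complex Set Filter
open scoped ENNReal NNReal ContDiff FourierTransform SchwartzMap ComplexConjugate Topology

set_option linter.all false

namespace Vale.Agent.N106

open Vale.Agent.P117 Vale.Agent.P106 Vale.Agent.P106.H499

theorem ae_ne0 : ∀ᵐ ξ : E3, ξ ≠ 0 := by
  rw [ae_iff]
  simp

/-- cut-off to one high dyadic frequency -/
noncomputable def ch (l : ℤ) (ξ : E3) : ℂ := if 0 < l then chd ((4 * ‖ξ‖ / 3) / (2:ℝ) ^ l) else 0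

theorem norm_ch_le (l : ℤ) (ξ : E3) : ‖ch l ξ‖ ≤ chr ((4 * ‖ξ‖ / 3) / (2:ℝ) ^ l) := by
  have h3 : 0 ≤ chr ((4 * ‖ξ‖ / 3) / (2:ℝ) ^ l) := chr_nonneg (by positivity)
  unfold ch
  split_ifs
  · rw [chd_eq, Complex.norm_real, Real.norm_of_nonneg h3]
  · simpa using h3

theorem measurable_ch (l : ℤ) : Measurable (ch l) := by
  unfold ch
  have hcm : Measurable chd := contDiff_chd.continuous.measurable
  split_ifs
  · fun_prop
  · fun_prop

theorem norm_etz_le (t : ℝ) : ‖etz t‖ ≤ 1 := by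
  unfold etz
  rw [Complex.norm_real, Real.norm_of_nonneg (Real.smoothTransition.nonneg _)]
  exact Real.smoothTransition.le_one _

theorem hi_hasSum {Φ : E3 → ℂ} (hF : Integrable Φ) (x : E3) :
    HasSum (fun l : ℤ => 𝓕⁻ (fun ξ => ch l ξ * Φ ξ) x) (𝓕⁻ Φ x - 𝓕⁻ (fun ξ => etz (4 * ‖ξ‖ / 3) * Φ ξ) x) := by
  have hE : Integrable (fun ξ : E3 => etz (4 * ‖ξ‖ / 3) * Φ ξ) :=
    hF.bdd_mul (c := 1) (contDiff_etzr (V := E3)).continuous.aestronglyMeasurable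
      (Eventually.of_forall fun ξ => norm_etz_le _)
  rw [← fi_sub hF hE]
  simp_rw [Real.fourierInv_eq']
  apply hasSum_integral_of_dominated_convergence
    (bound := fun (l : ℤ) (ξ : E3) => chr ((4 * ‖ξ‖ / 3) / (2:ℝ) ^ l) * ‖Φ ξ‖)
  · intro l
    have h1 : AEStronglyMeasurable (fun ξ : E3 => cexp ((2 * Real.pi * inner ℝ ξ x : ℝ) * I)) volume := by
      apply Continuous.aestronglyMeasurable
      fun_prop
    exact h1.smul ((measurable_ch l).aestronglyMeasurable.mul hF.1)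
  · intro l
    filter_upwards with ξ
    rw [norm_smul, norm_mul, Complex.norm_exp_ofReal_mul_I, one_mul]
    gcongr
    exact norm_ch_le l ξ
  · filter_upwards [ae_ne0] with ξ hξ
    have h0 : 0 < 4 * ‖ξ‖ / 3 := by
      have := norm_pos_iff.2 hξ
      positivity
    exact ((chr_sum h0).summable).mul_right _
  · refine hF.norm.congr ?_
    filter_upwards [ae_ne0] with ξ hξ
    have h0 : 0 < 4 * ‖ξ‖ / 3 := by
      have := norm_pos_iff.2 hξ
      positivity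
    rw [((chr_sum h0).mul_right _).tsum_eq, one_mul]
  · filter_upwards [ae_ne0] with ξ hξ
    have h0 : 0 < 4 * ‖ξ‖ / 3 := by
      have := norm_pos_iff.2 hξ
      positivity
    have h1 := ((chd_sum h0).sub (chd_low h0)).mul_right (Φ ξ)
    have e : Φ ξ - etz (4 * ‖ξ‖ / 3) * Φ ξ = (1 - etz (4 * ‖ξ‖ / 3)) * Φ ξ := by ring
    rw [e]
    refine (h1.congr_fun ?_).const_smul _
    intro l
    unfold ch
    split_ifs <;> ring

theorem fi_deriv {Φ : E3 → ℂ} (hF : Integrable Φ) {m m' : ℝ → E3 → ℂ} (hm : ∀ s, Measurable (m s))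
    (hm' : ∀ s, Measurable (m' s)) (hb : ∀ s ξ, ‖m s ξ‖ ≤ |s|) (hb' : ∀ s ξ, ‖m' s ξ‖ ≤ 1)
    (hd : ∀ ξ, ξ ≠ 0 → ∀ s, HasDerivAt (fun r => m r ξ) (m' s ξ) s) (x : E3) (t : ℝ) :
    HasDerivAt (fun s => 𝓕⁻ (fun ξ => m s ξ * Φ ξ) x) (𝓕⁻ (fun ξ => m' t ξ * Φ ξ) x) t := by
  simp_rw [Real.fourierInv_eq']
  have he : AEStronglyMeasurable (fun ξ : E3 => cexp ((2 * Real.pi * inner ℝ ξ x : ℝ) * I)) volume :=
    Continuous.aestronglyMeasurable (by fun_prop)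
  refine (hasDerivAt_integral_of_dominated_loc_of_deriv_le (s := univ) (bound := fun ξ => ‖Φ ξ‖)
    (F := fun (s : ℝ) (ξ : E3) => cexp ((2 * Real.pi * inner ℝ ξ x : ℝ) * I) • (m s ξ * Φ ξ))
    (F' := fun (s : ℝ) (ξ : E3) => cexp ((2 * Real.pi * inner ℝ ξ x : ℝ) * I) • (m' s ξ * Φ ξ))
    univ_mem ?_ ?_ ?_ ?_ hF.norm ?_).2
  · exact Eventually.of_forall fun s => he.smul ((hm s).aestronglyMeasurable.mul hF.1)
  · refine Integrable.mono' (hF.norm.const_mul |t|) (he.smul ((hm t).aestronglyMeasurable.mul hF.1)) ?_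
    filter_upwards with ξ
    rw [norm_smul, Complex.norm_exp_ofReal_mul_I, one_mul, norm_mul]
    gcongr
    exact hb t ξ
  · exact he.smul ((hm' t).aestronglyMeasurable.mul hF.1)
  · filter_upwards with ξ s _
    rw [norm_smul, Complex.norm_exp_ofReal_mul_I, one_mul, norm_mul]
    exact mul_le_of_le_one_left (norm_nonneg _) (hb' s ξ)
  · filter_upwards [ae_ne0] with ξ hξ s _
    exact ((hd ξ hξ s).mul_const (Φ ξ)).const_smul (cexp ((2 * Real.pi * inner ℝ ξ x : ℝ) * I))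

/-- symbol of the sine propagator -/
noncomputable def sk (t r : ℝ) : ℂ := ((Real.sin (t * (2 * Real.pi * r)) / (2 * Real.pi * r) : ℝ) : ℂ)

/-- symbol of the cosine propagator -/
noncomputable def ck (t r : ℝ) : ℂ := ((Real.cos (t * (2 * Real.pi * r)) : ℝ) : ℂ)

theorem norm_sk_le (t : ℝ) {r : ℝ} (hr : 0 ≤ r) : ‖sk t r‖ ≤ |t| := by
  unfold sk
  have hpi := Real.pi_pos
  rw [Complex.norm_real, Real.norm_eq_abs]
  rcases hr.eq_or_lt with h | h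
  · rw [← h]; simp
  · rw [abs_div, abs_of_pos (by positivity : 0 < 2 * Real.pi * r), div_le_iff₀ (by positivity)]
    refine Real.abs_sin_le_abs.trans (le_of_eq ?_)
    rw [abs_mul, abs_of_pos (by positivity : 0 < 2 * Real.pi * r)]

theorem sk_eq (t r : ℝ) : sk t r = (cexp (2 * Real.pi * I * (t * r : ℝ)) - cexp (2 * Real.pi * I * (-t * r : ℝ))) *
    (-I / 2) * (((2 * Real.pi * r)⁻¹ : ℝ) : ℂ) := by
  unfold sk
  rw [div_eq_mul_inv, Complex.ofReal_mul, Complex.ofReal_sin, Complex.sin]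
  congr 1
  have e1 : -((t * (2 * Real.pi * r) : ℝ) : ℂ) * I = 2 * Real.pi * I * (-t * r : ℝ) := by push_cast; ring
  have e2 : ((t * (2 * Real.pi * r) : ℝ) : ℂ) * I = 2 * Real.pi * I * (t * r : ℝ) := by push_cast; ring
  rw [e1, e2]
  ring

theorem ck_eq (t r : ℝ) : ck t r =
    (1 / 2) * cexp (2 * Real.pi * I * (t * r : ℝ)) + (1 / 2) * cexp (2 * Real.pi * I * (-t * r : ℝ)) := by
  unfold ck
  rw [Complex.ofReal_cos, Complex.cos]
  have e1 : -((t * (2 * Real.pi * r) : ℝ) : ℂ) * I = 2 * Real.pi * I * (-t * r : ℝ) := by push_cast; ring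
  have e2 : ((t * (2 * Real.pi * r) : ℝ) : ℂ) * I = 2 * Real.pi * I * (t * r : ℝ) := by push_cast; ring
  rw [e1, e2]
  ring

/-- the sine propagator -/
noncomputable def sn (g : E3 → ℂ) (t : ℝ) (x : E3) : ℂ := 𝓕⁻ (fun ξ => sk t ‖ξ‖ * 𝓕 g ξ) x

/-- the cosine propagator -/
noncomputable def cs (g : E3 → ℂ) (t : ℝ) (x : E3) : ℂ := 𝓕⁻ (fun ξ => ck t ‖ξ‖ * 𝓕 g ξ) x

theorem int_sm {β : ℝ} (hβ : 0 ≤ β) {Φ : E3 → ℂ} (h : Integrable Φ) (s : ℝ) : Integrable fun ξ => sm β s ξ * Φ ξ :=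
  h.bdd_mul (c := 1) (measurable_sm β s).aestronglyMeasurable (Eventually.of_forall fun ξ => norm_sm_le hβ s ξ)

theorem uu_comb {β : ℝ} (hβ : 0 ≤ β) {h : E3 → ℂ} (hF : Integrable (𝓕 h)) (a b : ℂ) (t : ℝ) (x : E3) :
    a * uu β h t x + b * uu β h (-t) x = 𝓕⁻ (fun ξ => (a * sm β t ξ + b * sm β (-t) ξ) * 𝓕 h ξ) x := by
  unfold uu
  rw [← fi_const, ← fi_const, ← fi_add ((int_sm hβ hF t).const_mul a) ((int_sm hβ hF (-t)).const_mul b)]
  apply fi_congr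
  intro ξ
  ring

theorem Dom_comb {P : ℝ} (hP : 1 ≤ P) {q : ℝ≥0∞} (hq : 1 ≤ q) {τ β : ℝ} (hβ : 0 ≤ β) {h : E3 → ℂ}
    (hF : Integrable (𝓕 h)) {c : ℝ} (hc : 0 ≤ c) (d : Dom P q (Icc (-τ) τ) (uu β h) (ENNReal.ofReal c)) (a b : ℂ)
    {A : ℝ} (ha : ‖a‖ ≤ A) (hb : ‖b‖ ≤ A) :
    Dom P q (Icc (-τ) τ) (fun t x => a * uu β h t x + b * uu β h (-t) x) (ENNReal.ofReal (2 * A * c)) := by
  have hP0 : 0 < P := by linarith
  have cu := cont_uu hβ hF
  have hA : 0 ≤ A := (norm_nonneg _).trans ha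
  have d1 := d.smul hP0 a
  have d2 := (d.neg (fun x => cont_t cu x)).smul hP0 b
  have d3 := Dom.add hP hq (F := fun t x => a * uu β h t x) (G := fun t x => b * uu β h (-t) x)
    (fun x => continuous_const.mul (cont_t cu x))
    (fun x => continuous_const.mul ((cont_t cu x).comp continuous_neg)) d1 d2
  refine d3.mono ?_
  rw [← ofReal_norm a, ← ofReal_norm b, ← ENNReal.ofReal_mul (norm_nonneg _), ← ENNReal.ofReal_mul (norm_nonneg _),
    ← ENNReal.ofReal_add (by positivity) (by positivity)]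
  apply ENNReal.ofReal_le_ofReal
  nlinarith [norm_nonneg a, norm_nonneg b]

/-- symbol for the inverse of the square root of the Laplacian -/
noncomputable def X3 (η : E3) : ℂ := q0 ‖η‖ * (((2 * Real.pi * ‖η‖)⁻¹ : ℝ) : ℂ)

theorem contDiff_X3 : ContDiff ℝ ∞ X3 := by
  have h1 : ContDiff ℝ ∞ (fun r : ℝ => q0 r * (((2 * Real.pi * r)⁻¹ : ℝ) : ℂ)) := by
    rw [contDiff_iff_contDiffAt]
    intro r
    by_cases hr : r = 0
    · have : (fun r : ℝ => q0 r * (((2 * Real.pi * r)⁻¹ : ℝ) : ℂ)) =ᶠ[𝓝 r] fun _ => 0 := by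
        have hb : Iio (3/8 : ℝ) ∈ 𝓝 r := Iio_mem_nhds (by rw [hr]; norm_num)
        filter_upwards [hb] with z hz
        rw [q0_left (le_of_lt hz), zero_mul]
      exact contDiffAt_const.congr_of_eventuallyEq this
    · have hpi := Real.pi_pos
      have h2 : ContDiffAt ℝ ∞ (fun r : ℝ => (2 * Real.pi * r)⁻¹) r :=
        (contDiffAt_const.mul contDiffAt_id).inv (by positivity)
      exact contDiff_q0.contDiffAt.mul (Complex.ofRealCLM.contDiff.contDiffAt.comp _ h2)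
  exact contDiff_radial h1 (by norm_num : (0:ℝ) < 3/8) (fun t ht => by rw [q0_left ht, zero_mul])

theorem symL_eq (α : ℝ) (ξ : E3) : symL α (ξ, 0) = etz (4 * ‖ξ‖ / 3) * bf α ‖ξ‖ := rfl

theorem meas_sk (t : ℝ) : Measurable fun ξ : E3 => sk t ‖ξ‖ := by
  unfold sk
  fun_prop

theorem cont_sk (r : ℝ) : Continuous fun t => sk t r := by
  unfold sk
  fun_prop

/-- continuity in time -/
theorem cont_sn {Φ : E3 → ℂ} (hF : Integrable Φ) (x : E3) : Continuous fun t => 𝓕⁻ (fun ξ => sk t ‖ξ‖ * Φ ξ) x := by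
  have h := fi_deriv hF (m := fun s ξ => sk s ‖ξ‖) (m' := fun s ξ => ck s ‖ξ‖) meas_sk
    (fun s => by unfold ck; fun_prop) (fun s ξ => norm_sk_le s (norm_nonneg _))
    (fun s ξ => by unfold ck; rw [Complex.norm_real]; exact Real.abs_cos_le_one _) (fun ξ hξ s => by
      have hpi := Real.pi_pos
      have h0 : 0 < 2 * Real.pi * ‖ξ‖ := by
        have := norm_pos_iff.2 hξ
        positivity
      have d0 : HasDerivAt (fun r : ℝ => r * (2 * Real.pi * ‖ξ‖)) (2 * Real.pi * ‖ξ‖) s := by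
        simpa using (hasDerivAt_id s).mul_const (2 * Real.pi * ‖ξ‖)
      have d1 := (d0.sin.div_const (2 * Real.pi * ‖ξ‖)).ofReal_comp
      rw [mul_div_cancel_right₀ _ h0.ne'] at d1
      exact d1) x
  exact continuous_iff_continuousAt.2 fun t => (h t).continuousAt

/-- primitive of the exponential -/
noncomputable def pk (β s : ℝ) (ξ : E3) : ℂ :=
  bf β ‖ξ‖ * ((cexp (2 * Real.pi * I * (s * ‖ξ‖ : ℝ)) - 1) * (-I * (((2 * Real.pi * ‖ξ‖)⁻¹ : ℝ) : ℂ)))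

theorem norm_pk_le {β : ℝ} (hβ : 0 ≤ β) (s : ℝ) (ξ : E3) : ‖pk β s ξ‖ ≤ |s| := by
  unfold pk
  have hpi := Real.pi_pos
  have h1 := norm_bf_le hβ ‖ξ‖
  have h2 : ‖(cexp (2 * Real.pi * I * (s * ‖ξ‖ : ℝ)) - 1) * (-I * (((2 * Real.pi * ‖ξ‖)⁻¹ : ℝ) : ℂ))‖ ≤ |s| := by
    rcases (norm_nonneg ξ).eq_or_lt with h | h
    · rw [← h]; simp
    · have h6 := Real.norm_exp_I_mul_ofReal_sub_one_le (x := s * (2 * Real.pi * ‖ξ‖))
      have e2 : cexp (2 * Real.pi * I * (s * ‖ξ‖ : ℝ)) = cexp (I * ((s * (2 * Real.pi * ‖ξ‖) : ℝ) : ℂ)) := by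
        congr 1; push_cast; ring
      rw [e2, norm_mul, norm_mul, norm_neg, Complex.norm_I, one_mul, Complex.norm_real,
        Real.norm_of_nonneg (by positivity), ← div_eq_mul_inv, div_le_iff₀ (by positivity)]
      refine h6.trans (le_of_eq ?_)
      rw [Real.norm_eq_abs, abs_mul, abs_of_pos (by positivity : 0 < 2 * Real.pi * ‖ξ‖)]
  rw [norm_mul]
  calc _ ≤ 1 * |s| := by gcongr
    _ = _ := one_mul _

theorem meas_pk (β s : ℝ) : Measurable (pk β s) := by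
  unfold pk
  have hb : Measurable (bf β) := (continuous_bf β).measurable
  fun_prop

theorem pk_deriv {β : ℝ} (hβ : 0 ≤ β) {h : E3 → ℂ} (hF : Integrable (𝓕 h)) (x : E3) (t : ℝ) :
    HasDerivAt (fun s => 𝓕⁻ (fun ξ => pk β s ξ * 𝓕 h ξ) x) (uu β h t x) t := by
  refine fi_deriv hF (m := pk β) (m' := sm β) (meas_pk β) (measurable_sm β) (norm_pk_le hβ) (norm_sm_le hβ) ?_ x t
  intro ξ hξ s
  have hpi := Real.pi_pos
  have h0 : 0 < ‖ξ‖ := norm_pos_iff.2 hξ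
  have d1 : HasDerivAt (fun r : ℝ => (2 * Real.pi * I * (r * ‖ξ‖ : ℝ) : ℂ)) (2 * Real.pi * I * (‖ξ‖ : ℝ)) s := by
    have d0 : HasDerivAt (fun r : ℝ => r * ‖ξ‖) ‖ξ‖ s := by simpa using (hasDerivAt_id s).mul_const ‖ξ‖
    exact d0.ofReal_comp.const_mul _
  have d2 := ((d1.cexp.sub_const 1).mul_const (-I * (((2 * Real.pi * ‖ξ‖)⁻¹ : ℝ) : ℂ))).const_mul (bf β ‖ξ‖)
  have h1 : ((‖ξ‖ : ℝ) : ℂ) ≠ 0 := by exact_mod_cast h0.ne'
  have h2 : ((Real.pi : ℝ) : ℂ) ≠ 0 := by exact_mod_cast hpi.ne'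
  have h3 : (2 * Real.pi * I * (‖ξ‖ : ℝ) : ℂ) * (-I * (((2 * Real.pi * ‖ξ‖)⁻¹ : ℝ) : ℂ)) = 1 := by
    push_cast
    field_simp
    rw [Complex.I_sq]
    ring
  rw [mul_assoc (cexp _), h3, mul_one] at d2
  exact d2

/-- **mixed norm estimate for the sine propagator** -/
theorem mixed_sn {P β α : ℝ} (hP : 1 ≤ P) {q : ℝ≥0∞} (hq : ENNReal.ofReal P ≤ q) (hβ : 0 ≤ β) (hB : Both P β)
    (hPq : q.toReal⁻¹ ≤ 1 / P) (hα : β + 1 / P - q.toReal⁻¹ < α) {τ : ℝ} (hτ : 1 ≤ τ) :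
    ∃ C : ℝ, 0 ≤ C ∧ ∀ g G : E3 → ℂ, Integrable (𝓕 g) → Adm volume G → (∀ ξ, 𝓕 g ξ = bf (α - 1) ‖ξ‖ * 𝓕 G ξ) →
    Dom P q (Icc (-τ) τ) (sn g) (ENNReal.ofReal (C * nrm (ENNReal.ofReal P) G volume)) := by
  obtain ⟨a, ha1, ha2⟩ := exists_between hα
  have ha0 : 0 ≤ a := by linarith
  obtain ⟨C1, hC1, h1⟩ := mixed_uu hP hq hβ hB ha0 ha1 hτ
  obtain ⟨C2, hC2, h2⟩ := kernel (α - 1 - a) contDiff_X3
  obtain ⟨C3, hC3, h3⟩ := low_op (α - 1 - β)
  obtain ⟨C4, hC4, h4⟩ := hB τ hτ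
  have hP1 := one_le_ofReal hP
  have hq1 := hP1.trans hq
  have hP0 : 0 < P := by linarith
  have hpi := Real.pi_pos
  set r : ℝ := (2:ℝ) ^ (a - α) with hr
  have hr0 : 0 ≤ r := by positivity
  have hr1 : r < 1 := Real.rpow_lt_one_of_one_lt_of_neg (by norm_num) (by linarith)
  set S : ℝ := ∑' l : ℤ, kz r l with hSd
  have hS0 : 0 ≤ S := tsum_nonneg (kz_nonneg hr0)
  refine ⟨C1 * C2 * S + 4 * τ ^ 2 * (C4 * C3), by positivity, ?_⟩
  intro g G hF hG hgG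
  set n : ℝ := nrm (ENNReal.ofReal P) G volume with hn
  have hn0 : 0 ≤ n := nrm_nonneg
  have iS : ∀ t, Integrable fun ξ : E3 => sk t ‖ξ‖ * 𝓕 g ξ := fun t =>
    hF.bdd_mul (c := |t|) (meas_sk t).aestronglyMeasurable
      (Eventually.of_forall fun ξ => norm_sk_le t (norm_nonneg _))
  have iC : ∀ l, Integrable fun ξ : E3 => ch l ξ * 𝓕 g ξ := fun l =>
    hF.bdd_mul (c := 1) (measurable_ch l).aestronglyMeasurable
      (Eventually.of_forall fun ξ => (norm_ch_le l ξ).trans (chr_le_one _))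
  have iE : Integrable (fun ξ : E3 => etz (4 * ‖ξ‖ / 3) * 𝓕 g ξ) :=
    hF.bdd_mul (c := 1) (contDiff_etzr (V := E3)).continuous.aestronglyMeasurable
      (Eventually.of_forall fun ξ => norm_etz_le _)
  set F : ℤ → ℝ → E3 → ℂ := fun l t x => 𝓕⁻ (fun ξ => sk t ‖ξ‖ * (ch l ξ * 𝓕 g ξ)) x with hFd
  set L : ℝ → E3 → ℂ := fun t x => 𝓕⁻ (fun ξ => sk t ‖ξ‖ * (etz (4 * ‖ξ‖ / 3) * 𝓕 g ξ)) x with hLd
  have hs : ∀ t x, HasSum (fun l => F l t x) (sn g t x - L t x) := by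
    intro t x
    have h5 := hi_hasSum (iS t) x
    have e1 : L t x = 𝓕⁻ (fun ξ => etz (4 * ‖ξ‖ / 3) * (sk t ‖ξ‖ * 𝓕 g ξ)) x := fi_congr (fun ξ => by ring) x
    rw [e1]
    refine h5.congr_fun fun l => ?_
    exact fi_congr (fun ξ => by ring) x
  have hp : ∀ l : ℤ, Dom P q (Icc (-τ) τ) (F l) (ENNReal.ofReal (C1 * C2 * kz r l * n)) := by
    intro l
    by_cases hl : 0 < l
    · set Λ : ℝ := (2:ℝ) ^ l with hΛ
      have hΛ0 : 0 < Λ := by positivity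
      have hΛ1 : 1 ≤ Λ := by rw [hΛ]; exact one_le_zpow₀ (by norm_num) hl.le
      obtain ⟨h, a1, a2, a3, -, a4⟩ := h2 Λ hΛ0 G hG
      have a5 := a4 _ hP1
      rw [max_eq_right hΛ1, ← hn] at a5
      have m0 : 0 ≤ nrm (ENNReal.ofReal P) h volume := nrm_nonneg
      have nA : ‖(-I / 2) * ((Λ⁻¹ : ℝ) : ℂ)‖ ≤ Λ⁻¹ / 2 := by
        rw [norm_mul, Complex.norm_real, Real.norm_of_nonneg (by positivity), norm_div, norm_neg, Complex.norm_I]
        simp only [Complex.norm_ofNat]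
        linarith
      have d := Dom_comb hP hq1 ha0 a2 (by positivity) (h1 h a1 a2) ((-I / 2) * ((Λ⁻¹ : ℝ) : ℂ))
        (-((-I / 2) * ((Λ⁻¹ : ℝ) : ℂ))) nA (by rw [norm_neg]; exact nA)
      have e2 : F l = fun t x => (-I / 2) * ((Λ⁻¹ : ℝ) : ℂ) * uu a h t x +
          -((-I / 2) * ((Λ⁻¹ : ℝ) : ℂ)) * uu a h (-t) x := by
        ext t x
        rw [uu_comb ha0 a2]
        apply fi_congr
        intro ξ
        have hnn : ‖Λ⁻¹ • ξ‖ = ‖ξ‖ / Λ := by rw [norm_smulE (inv_pos.2 hΛ0), div_eq_inv_mul]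
        have e3 : bf (α - 1) ‖ξ‖ = bf a ‖ξ‖ * bf (α - 1 - a) ‖ξ‖ := by
          rw [← bf_add]; congr 1; ring
        have e4 : (((2 * Real.pi * (‖ξ‖ / Λ))⁻¹ : ℝ) : ℂ) = Λ * (((2 * Real.pi * ‖ξ‖)⁻¹ : ℝ) : ℂ) := by
          rw [← Complex.ofReal_mul]
          congr 1
          rw [← mul_div_assoc, inv_div, div_eq_mul_inv]
        have e5 : ((Λ⁻¹ : ℝ) : ℂ) * Λ = 1 := by
          rw [← Complex.ofReal_mul, inv_mul_cancel₀ hΛ0.ne', Complex.ofReal_one]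
        have e6 := q0_q2 (‖ξ‖ / Λ)
        rw [a3, hgG, sk_eq, e3]
        unfold ch X3 sm
        rw [if_pos hl, hnn, ← hΛ, ← q0_div ξ hΛ0, e4]
        set E1 := cexp (2 * Real.pi * I * (t * ‖ξ‖ : ℝ))
        set E2 := cexp (2 * Real.pi * I * (-t * ‖ξ‖ : ℝ))
        set Y := (((2 * Real.pi * ‖ξ‖)⁻¹ : ℝ) : ℂ)
        set Z := (E1 - E2) * (-I / 2) * Y * bf a ‖ξ‖ * bf (α - 1 - a) ‖ξ‖ * 𝓕 G ξ with hZ
        calc _ = Z * q0 (‖ξ‖ / Λ) := by rw [hZ]; ring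
          _ = Z * (q0 (‖ξ‖ / Λ) * q2 (‖ξ‖ / Λ)) * (((Λ⁻¹ : ℝ) : ℂ) * Λ) := by rw [e5, e6, mul_one]
          _ = _ := by rw [hZ]; ring
      rw [e2]
      refine d.mono (ENNReal.ofReal_le_ofReal ?_)
      have e7 : Λ ^ (-(α - 1 - a)) = Λ * Λ ^ (a - α) := by
        conv_rhs => rw [← Real.rpow_one Λ, ← Real.rpow_mul hΛ0.le, one_mul]
        rw [← Real.rpow_add hΛ0]
        congr 1
        ring
      have e8 : Λ ^ (a - α) ≤ kz r l := zpow_le_kz hl le_rfl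
      calc 2 * (Λ⁻¹ / 2) * (C1 * nrm (ENNReal.ofReal P) h volume) ≤
            2 * (Λ⁻¹ / 2) * (C1 * (C2 * Λ ^ (-(α - 1 - a)) * n)) := by gcongr
        _ = C1 * C2 * Λ ^ (a - α) * n := by rw [e7]; field_simp
        _ ≤ _ := by gcongr
    · refine ⟨fun _ => 0, measurable_const, fun x => le_of_eq ?_, ?_⟩
      · have : (fun t => F l t x) = 0 := by
          ext t
          have e9 : F l t x = 𝓕⁻ (fun ξ : E3 => (0:ℂ) * 𝓕 g ξ) x := by
            apply fi_congr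
            intro ξ
            unfold ch
            rw [if_neg hl]
            ring
          rw [e9, fi_const, zero_mul]
          rfl
        rw [this, eLpNorm_zero]
      · unfold lp
        simp [ENNReal.zero_rpow_of_pos hP0, hP0]
  have d1 := Dom.tsum hP hq1 (G := fun t x => sn g t x - L t x) (fun l x => cont_sn (iC l) x) hs hp
  rw [tsum_kz hr0 hr1 (by positivity) hn0] at d1
  obtain ⟨s1, s2, s3, s4⟩ := h3 G hG
  have m1 : 0 ≤ nrm (ENNReal.ofReal P) (lo (α - 1 - β) G) volume := nrm_nonneg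
  have s5 := s4 _ hP1
  have cu := cont_uu hβ s2
  have d2 := Dom_int hP hq1 hτ (F := L) (G := uu β (lo (α - 1 - β) G)) cu (fun x t ht => by
      have iP : ∀ s, Integrable fun ξ => pk β s ξ * 𝓕 (lo (α - 1 - β) G) ξ := fun s =>
        s2.bdd_mul (c := |s|) (meas_pk β s).aestronglyMeasurable (Eventually.of_forall fun ξ => norm_pk_le hβ s ξ)
      have e1 : L t x = (1 / 2) * (𝓕⁻ (fun ξ => pk β t ξ * 𝓕 (lo (α - 1 - β) G) ξ) x -
          𝓕⁻ (fun ξ => pk β (-t) ξ * 𝓕 (lo (α - 1 - β) G) ξ) x) := by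
        rw [← fi_sub (iP t) (iP (-t)), ← fi_const]
        apply fi_congr
        intro ξ
        have e3 : bf (α - 1) ‖ξ‖ = bf β ‖ξ‖ * bf (α - 1 - β) ‖ξ‖ := by
          rw [← bf_add]; congr 1; ring
        rw [s3, symL_eq, hgG, sk_eq, e3]
        unfold pk
        ring
      have h6 := ftc_le (pk_deriv hβ s2 x) (cont_t cu x) (a := -τ) (b := τ) (s := -t) (t := t)
        ⟨by linarith [ht.2], by linarith [ht.1]⟩ ht
      rw [e1, enorm_mul]
      refine le_trans ?_ h6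
      apply mul_le_of_le_one_left'
      rw [← ofReal_norm]
      apply ENNReal.ofReal_le_one.2
      norm_num)
    (B := C4 * (C3 * n)) (by positivity) ((h4 _ s1 s2).trans (pow_mono hP0.le (by positivity) (by gcongr)))
  have d3 := Dom.add hP hq1 (F := fun t x => sn g t x - L t x) (G := L)
    (fun x => (cont_sn hF x).sub (cont_sn iE x)) (fun x => cont_sn iE x) d1 d2
  have e1 : (fun t x => sn g t x - L t x + L t x) = sn g := by
    ext t x
    ring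
  rw [e1] at d3
  refine d3.mono (le_of_eq ?_)
  rw [← ENNReal.ofReal_add (by positivity) (by positivity)]
  congr 1
  ring

theorem cs_eq {α : ℝ} (hα : 0 ≤ α) (f : 𝓢(E3, ℂ)) (t : ℝ) (x : E3) :
    cs f t x = (1 / 2) * uu α (jS α f) t x + (1 / 2) * uu α (jS α f) (-t) x := by
  rw [uu_comb hα (fint_sch _)]
  apply fi_congr
  intro ξ
  rw [fourier_jS, ck_eq]
  unfold sm
  linear_combination (-((1 / 2) * cexp (2 * Real.pi * I * (t * ‖ξ‖ : ℝ)) +
    (1 / 2) * cexp (2 * Real.pi * I * (-t * ‖ξ‖ : ℝ))) * 𝓕 (f : E3 → ℂ) ξ) * bf_jw α ξ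

end Vale.Agent.N106
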