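import Vale.Agent.N106.C

/-! # Sharpness of the mixed norm estimates -/

open MeasureTheory Complex Set Filter
open scoped ENNReal NNReal ContDiff FourierTransform SchwartzMap ComplexConjugate Topology

set_option linter.all false

namespace Vale.Agent.N106

open Vale.Agent.P117 Vale.Agent.P106 Vale.Agent.P106.H499

/-- the frequency localized mixed norm estimate -/
def Loc (p : ℝ) (q : ℝ≥0∞) (α : ℝ) : Prop := ∃ C : ℝ, 0 ≤ C ∧ ∀ Λ : ℝ, 1 ≤ Λ → ∀ b : E3 → ℂ, ContDiff ℝ ∞ b →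
  (∀ η, b η ≠ 0 → 3 / 8 ≤ ‖η‖ ∧ ‖η‖ ≤ 3 / 2) →
  eLpNorm (fun x => eLpNorm (fun t : ℝ => 𝓕⁻ (fun ξ => cexp (2 * Real.pi * I * (t * ‖ξ‖ : ℝ)) * dil Λ b ξ) x) q
    (volume.restrict (Icc 1 2))) (ENNReal.ofReal p) volume ≤
    ENNReal.ofReal (C * Λ ^ α) * eLpNorm (𝓕⁻ (dil Λ b)) (ENNReal.ofReal p) volume

theorem fi_dil {Λ : ℝ} (hΛ : 0 < Λ) (M : E3 → ℂ) (w : E3) : 𝓕⁻ (dil Λ M) w = ((Λ ^ 3 : ℝ) : ℂ) * 𝓕⁻ M (Λ • w) := by
  rw [Real.fourierInv_eq_fourier_neg, fourier_dil hΛ, Real.fourierInv_eq_fourier_neg, smul_neg]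

theorem test {p α : ℝ} (hp : 0 < p) {q : ℝ≥0∞} (hq : q ≠ 0) (h : Loc p q α) : ∃ C : ℝ, 0 ≤ C ∧ ∀ R : ℝ, 1 ≤ R →
    ∀ b : E3 → ℂ, ContDiff ℝ ∞ b → (∀ η, b η ≠ 0 → 3 / 8 ≤ ‖η‖ ∧ ‖η‖ ≤ 3 / 2) → ∀ (B : Set E3) (m w : ℝ),
    MeasurableSet B → 0 ≤ m → 0 < w → (∀ y ∈ B, ∃ T0 : ℝ, R ≤ T0 ∧ T0 + w ≤ 2 * R ∧ ∀ T ∈ Icc T0 (T0 + w),
      m ≤ ‖𝓕⁻ (fun η => cexp (2 * Real.pi * I * (T * ‖η‖ : ℝ)) * b η) y‖) →
    ENNReal.ofReal ((m * w ^ q.toReal⁻¹) ^ p) * volume B ≤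
      ENNReal.ofReal ((C * R ^ (α + q.toReal⁻¹)) ^ p) * ∫⁻ y, ‖𝓕⁻ b y‖ₑ ^ p := by
  obtain ⟨C, hC, h⟩ := h
  refine ⟨C, hC, ?_⟩
  intro R hR b hb hs B m w hB hm hw hlow
  have hR0 : 0 < R := by linarith
  set θ := q.toReal⁻¹ with hθ
  have hθ0 : 0 ≤ θ := by positivity
  have h1 := h R hR b hb hs
  set N : E3 → ℝ≥0∞ := fun x => eLpNorm (fun t : ℝ => 𝓕⁻ (fun ξ => cexp (2 * Real.pi * I * (t * ‖ξ‖ : ℝ)) *
    dil R b ξ) x) q (volume.restrict (Icc 1 2)) with hN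
  set c : ℝ := R ^ 3 * m * (w / R) ^ θ with hc
  have hc0 : 0 ≤ c := by positivity
  have e1 : ∀ (t : ℝ) (x : E3), 𝓕⁻ (fun ξ => cexp (2 * Real.pi * I * (t * ‖ξ‖ : ℝ)) * dil R b ξ) x =
      ((R ^ 3 : ℝ) : ℂ) * 𝓕⁻ (fun η => cexp (2 * Real.pi * I * ((R * t) * ‖η‖ : ℝ)) * b η) (R • x) := by
    intro t x
    rw [← fi_dil hR0]
    apply fi_congr
    intro ξ
    unfold dil
    simp only
    rw [norm_smulE (inv_pos.2 hR0)]
    have : R * t * (R⁻¹ * ‖ξ‖) = t * ‖ξ‖ := by field_simp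
    rw [this]
  have h2 : ∀ x : E3, R • x ∈ B → ENNReal.ofReal c ≤ N x := by
    intro x hx
    obtain ⟨T0, a1, a2, a3⟩ := hlow _ hx
    set s := Icc (T0 / R) ((T0 + w) / R) with hsd
    have hsub : s ⊆ Icc 1 2 := Icc_subset_Icc (by rw [le_div_iff₀ hR0]; linarith) (by rw [div_le_iff₀ hR0]; linarith)
    have hμ : (volume.restrict (Icc (1:ℝ) 2)) s = ENNReal.ofReal (w / R) := by
      rw [Measure.restrict_apply measurableSet_Icc, inter_eq_left.2 hsub, Real.volume_Icc]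
      congr 1
      ring
    have h3 := eLpNorm_indicator_const' (μ := volume.restrict (Icc (1:ℝ) 2)) (p := q) (s := s)
      (c := ((R ^ 3 * m : ℝ) : ℂ)) measurableSet_Icc (by rw [hμ]; simpa using div_pos hw hR0) hq
    rw [hμ, one_div, ← hθ, ← ofReal_norm, Complex.norm_real, Real.norm_of_nonneg (by positivity),
      ENNReal.ofReal_rpow_of_nonneg (by positivity) hθ0, ← ENNReal.ofReal_mul (by positivity)] at h3
    rw [hc, ← h3]
    apply eLpNorm_mono
    intro t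
    by_cases ht : t ∈ s
    · rw [indicator_of_mem ht, e1, norm_mul, Complex.norm_real, Complex.norm_real,
        Real.norm_of_nonneg (by positivity), Real.norm_of_nonneg (by positivity)]
      gcongr
      apply a3
      have t1 := ht.1
      have t2 := ht.2
      rw [div_le_iff₀ hR0] at t1
      rw [le_div_iff₀ hR0] at t2
      exact ⟨by linarith, by linarith⟩
    · rw [indicator_of_notMem ht, norm_zero]
      exact norm_nonneg _
  have h4 : ENNReal.ofReal ((R ^ 3)⁻¹) * (ENNReal.ofReal (c ^ p) * volume B) ≤ ∫⁻ x, N x ^ p := by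
    rw [← setLIntegral_const, ← lintegral_indicator hB,
      ← lintegral_smul3 hR0 (B.indicator fun _ => ENNReal.ofReal (c ^ p))]
    apply lintegral_mono
    intro x
    simp only
    by_cases hx : R • x ∈ B
    · rw [indicator_of_mem hx, ← ENNReal.ofReal_rpow_of_nonneg hc0 hp.le]
      exact ENNReal.rpow_le_rpow (h2 x hx) hp.le
    · rw [indicator_of_notMem hx]
      exact bot_le
  have h5 : ∫⁻ x, ‖𝓕⁻ (dil R b) x‖ₑ ^ p =
      ENNReal.ofReal ((R ^ 3) ^ p) * (ENNReal.ofReal ((R ^ 3)⁻¹) * ∫⁻ y, ‖𝓕⁻ b y‖ₑ ^ p) := by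
    rw [← lintegral_smul3 hR0 (fun y => ‖𝓕⁻ b y‖ₑ ^ p), ← lintegral_const_mul' _ _ ENNReal.ofReal_ne_top]
    congr 1
    ext x
    rw [fi_dil hR0, enorm_mul, ENNReal.mul_rpow_of_nonneg _ _ hp.le, ← ofReal_norm ((R ^ 3 : ℝ) : ℂ),
      Complex.norm_real, Real.norm_of_nonneg (by positivity), ENNReal.ofReal_rpow_of_nonneg (by positivity) hp.le]
  have hp' : ENNReal.ofReal p ≠ 0 := by simpa using hp
  rw [eLpNorm_eq_lintegral_rpow_enorm_toReal hp' ENNReal.ofReal_ne_top,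
    eLpNorm_eq_lintegral_rpow_enorm_toReal hp' ENNReal.ofReal_ne_top, ENNReal.toReal_ofReal hp.le] at h1
  have h6 := ENNReal.rpow_le_rpow h1 hp.le
  rw [ENNReal.mul_rpow_of_nonneg _ _ hp.le, ← ENNReal.rpow_mul, ← ENNReal.rpow_mul, one_div_mul_cancel hp.ne',
    ENNReal.rpow_one, ENNReal.rpow_one, h5, ENNReal.ofReal_rpow_of_nonneg (by positivity) hp.le] at h6
  have h7 := h4.trans h6
  set K : ℝ := R ^ 3 * ((R ^ 3) ^ p)⁻¹ * (R ^ θ) ^ p with hK
  have h8 := mul_le_mul' (le_refl (ENNReal.ofReal K)) h7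
  have e2 : K * ((R ^ 3)⁻¹ * c ^ p) = (m * w ^ θ) ^ p := by
    have e3 : c = R ^ 3 * ((m * w ^ θ) * (R ^ θ)⁻¹) := by
      rw [hc, Real.div_rpow hw.le hR0.le]
      ring
    rw [e3, Real.mul_rpow (by positivity) (by positivity), Real.mul_rpow (by positivity) (by positivity),
      Real.inv_rpow (by positivity), hK]
    field_simp
  have e4 : K * ((C * R ^ α) ^ p * ((R ^ 3) ^ p * (R ^ 3)⁻¹)) = (C * R ^ (α + θ)) ^ p := by
    rw [Real.rpow_add hR0, ← mul_assoc C, Real.mul_rpow (x := C * R ^ α) (by positivity) (by positivity), hK]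
    field_simp
  have hK0 : 0 ≤ K := by positivity
  rw [← e2, ← e4, ENNReal.ofReal_mul hK0, ENNReal.ofReal_mul hK0, ENNReal.ofReal_mul (p := (R ^ 3)⁻¹) (by positivity),
    ENNReal.ofReal_mul (p := (C * R ^ α) ^ p) (by positivity), ENNReal.ofReal_mul (p := (R ^ 3) ^ p) (by positivity)]
  simpa only [mul_assoc] using h8

theorem Lp_bump {β : E3 → ℝ} (hc : Continuous β) (hi : Integrable β) (h0 : ∀ ξ, 0 ≤ β ξ) (h1 : ∀ ξ, β ξ ≤ 1)
    {b : E3 → ℂ} (hb : ∀ ξ, ‖b ξ‖ = β ξ) (hm : Measurable b) :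
    ∫⁻ x, ‖𝓕⁻ b x‖ₑ ^ 2 ≤ ENNReal.ofReal (∫ ξ, β ξ) := by
  have hbi : Integrable b := hi.mono' hm.aestronglyMeasurable (Eventually.of_forall fun ξ => (hb ξ).le)
  refine (G.LSm.plinvE hbi hm).trans ?_
  rw [ofReal_integral_eq_lintegral_ofReal hi (Eventually.of_forall h0)]
  apply lintegral_mono
  intro ξ
  simp only
  rw [← ofReal_norm, hb, ← ENNReal.ofReal_pow (h0 ξ)]
  apply ENNReal.ofReal_le_ofReal
  nlinarith [h0 ξ, h1 ξ]

/-- focusing at one time -/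
theorem focus_low {p α : ℝ} (hp : 2 ≤ p) {q : ℝ≥0∞} (hq : q ≠ 0) (h : Loc p q α) :
    1 - 2 / p - q.toReal⁻¹ ≤ α := by
  have hp0 : 0 < p := by linarith
  obtain ⟨C, hC, h⟩ := test hp0 hq h
  obtain ⟨D, hD, hK⟩ := kernel_decay
  set θ := q.toReal⁻¹ with hθ
  have hpi := Real.pi_pos
  have hpi4 := Real.pi_lt_d2
  set β : E3 → ℝ := fun ξ => chr (4 * ‖ξ‖ / 3) with hβ
  have hX : ∀ ξ, X0 ξ = ((β ξ : ℝ) : ℂ) := X0_real
  have hβ0 : ∀ ξ, 0 ≤ β ξ := X0_re_nonneg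
  have hβc : Continuous β := by
    have h1 : Continuous (fun ξ => (X0 ξ).re) := Complex.continuous_re.comp contDiff_X0.continuous
    refine h1.congr fun ξ => ?_
    rw [hX, Complex.ofReal_re]
  have hne : ∀ ξ, β ξ ≠ 0 → X0 ξ ≠ 0 := by
    intro ξ h1 h2
    rw [hX] at h2
    exact h1 (by exact_mod_cast h2)
  have hβs : HasCompactSupport β := by
    apply HasCompactSupport.of_support_subset_isCompact (isCompact_closedBall (0:E3) 2)
    intro ξ hξ
    rw [Metric.mem_closedBall, dist_zero_right]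
    linarith [X0_small (hne ξ hξ)]
  have hβi : Integrable β := hβc.integrable_of_hasCompactSupport hβs
  set m : ℝ := ∫ ξ, β ξ with hm
  have hm0 : 0 < m := by
    apply hβc.integral_pos_of_hasCompactSupport_nonneg_nonzero hβs hβ0 (x := ce)
    have := hX ce
    rw [X0_one norm_ce] at this
    intro h2
    rw [h2] at this
    simp at this
  set v : ℝ := volume.real (Metric.ball (0:E3) (1 / 100)) with hv
  have hv0 : 0 < v := by
    apply ENNReal.toReal_pos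
    · exact (Metric.measure_ball_pos volume 0 (by norm_num)).ne'
    · exact measure_ball_lt_top.ne
  have hvol : volume (Metric.ball (0:E3) (1 / 100)) = ENNReal.ofReal v := by
    rw [hv, Measure.real, ENNReal.ofReal_toReal measure_ball_lt_top.ne]
  by_contra hcon
  push Not at hcon
  refine no_decay (K1 := ((3 / 8 * m) * (1 / 100) ^ θ) ^ p * v) (K2 := C ^ p * (D ^ (p - 2) * m))
    (e := (α + θ) * p - (p - 2)) (by positivity) ?_ ?_
  · have h3 : (α + θ) * p < (1 - 2 / p) * p := by gcongr; linarith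
    have h4 : (1 - 2 / p) * p = p - 2 := by field_simp
    linarith
  intro R hR
  have hR0 : 0 < R := by linarith
  obtain ⟨hc, _⟩ := wm1_DB X0 contDiff_X0 compact_X0 (r0 := 3/8) (by norm_num) (fun ξ hξ => X0_supp hξ) 0
  have hsup : ∀ x, ‖𝓕⁻ (wm1 X0 (-R)) x‖ ≤ D * R⁻¹ := by
    intro x
    have e1 : (wm1 X0 (-R) : E3 → ℂ) = fun ξ => conj (wm1 X0 R ξ) := by
      ext ξ; rw [conj_wm1]
    rw [e1, fi_conj, Complex.norm_conj]
    exact hK R (-x) hR
  have hL2 := Lp_bump hβc hβi hβ0 (fun ξ => chr_le_one _) (b := wm1 X0 (-R))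
    (fun ξ => by rw [norm_wm1, hX, Complex.norm_real, Real.norm_of_nonneg (hβ0 ξ)]) (hc (-R)).continuous.measurable
  have hLp := interp_p hsup hL2 hp
  have h1 := h R hR (wm1 X0 (-R)) (hc (-R)) (fun η hη => q0_supp (r := ‖η‖) (right_ne_zero_of_mul hη))
    (Metric.ball 0 (1 / 100)) (3 / 8 * m) (1 / 100) Metric.isOpen_ball.measurableSet (by positivity) (by norm_num) (by
      intro x hx
      refine ⟨R, le_rfl, by linarith, fun t ht => ?_⟩
      rw [Metric.mem_ball, dist_zero_right] at hx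
      set ψ : E3 → ℝ := fun ξ => 2 * Real.pi * (inner ℝ ξ x + (t - R) * ‖ξ‖) with hψ
      set W : E3 → ℂ := fun ξ => cexp (I * (ψ ξ : ℝ)) * 1 with hW
      have e1 : 𝓕⁻ (fun ξ : E3 => cexp (2 * Real.pi * I * (t * ‖ξ‖ : ℝ)) * wm1 X0 (-R) ξ) x =
          1 * ∫ ξ, W ξ * ((β ξ : ℝ) : ℂ) := by
        rw [Real.fourierInv_eq', one_mul]
        congr 1
        ext ξ
        rw [hW, hψ, smul_eq_mul, ← hX]
        unfold wm1
        simp only
        have e2 : cexp (((2 * Real.pi * inner ℝ ξ x : ℝ) : ℂ) * I) * (cexp (2 * Real.pi * I * (t * ‖ξ‖ : ℝ)) *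
            cexp (2 * Real.pi * I * (-R * ‖ξ‖ : ℝ))) =
            cexp (I * ((2 * Real.pi * (inner ℝ ξ x + (t - R) * ‖ξ‖) : ℝ) : ℂ)) := by
          rw [← Complex.exp_add, ← Complex.exp_add]
          congr 1
          push_cast
          ring
        rw [← e2]
        ring
      have hWc : Continuous W := by
        rw [hW, hψ]
        fun_prop
      have hWi : Integrable fun ξ => W ξ * ((β ξ : ℝ) : ℂ) := by
        apply (hWc.mul (Complex.continuous_ofReal.comp hβc)).integrable_of_hasCompactSupport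
        exact (hβs.comp_left (g := fun r : ℝ => (r : ℂ)) (by simp)).mul_left
      have hre : ∀ ξ, β ξ ≠ 0 → (3 / 8 : ℝ) ≤ (W ξ).re := by
        intro ξ hξ
        have h2 := X0_small (hne ξ hξ)
        have hn := norm_nonneg ξ
        apply re_low _ (by simp)
        have h3 : |inner ℝ ξ x| ≤ 3 / 2 * (1 / 100) := by
          refine (abs_real_inner_le_norm _ _).trans ?_
          exact mul_le_mul h2 hx.le (norm_nonneg _) (by norm_num)
        have h4 : |(t - R) * ‖ξ‖| ≤ (1 / 100) * (3 / 2) := by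
          rw [abs_mul, abs_of_nonneg hn, abs_of_nonneg (by linarith [ht.1])]
          apply mul_le_mul (by linarith [ht.2]) h2 hn (by norm_num)
        rw [hψ]
        simp only
        rw [abs_mul, abs_of_pos (by positivity : 0 < 2 * Real.pi)]
        have h6 := abs_add_le (inner ℝ ξ x) ((t - R) * ‖ξ‖)
        calc 2 * Real.pi * |inner ℝ ξ x + (t - R) * ‖ξ‖| ≤ 2 * 3.15 * (3 / 2 * (1 / 100) + (1 / 100) * (3 / 2)) := by
                apply mul_le_mul (by linarith) (h6.trans (add_le_add h3 h4)) (abs_nonneg _) (by norm_num)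
          _ ≤ 1 / 4 := by norm_num
      have h9 := low_int hβi hβ0 hWi hre (c0 := 1) (by simp)
      rw [← e1] at h9
      exact h9)
  have h2 := h1.trans (mul_le_mul' le_rfl hLp)
  rw [hvol, ← ENNReal.ofReal_mul (by positivity), ← ENNReal.ofReal_mul (by positivity),
    ← ENNReal.ofReal_mul (by positivity)] at h2
  have h3 := (ENNReal.ofReal_le_ofReal_iff (by positivity)).1 h2
  refine h3.trans (le_of_eq ?_)
  rw [Real.mul_rpow hC (by positivity), Real.mul_rpow hD (by positivity), ← Real.rpow_mul hR0.le,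
    Real.inv_rpow hR0.le, Real.rpow_sub hR0 ((α + θ) * p), ← hm]
  ring

theorem vol_box (a b : Fin 3 → ℝ) : volume {η : E3 | ∀ i, η i ∈ Icc (a i) (b i)} = ∏ i, ENNReal.ofReal (b i - a i) := by
  have h1 := (PiLp.volume_preserving_ofLp (ι := Fin 3)).measure_preimage
    (s := Icc a b) measurableSet_Icc.nullMeasurableSet
  rw [Real.volume_Icc_pi] at h1
  rw [← h1]
  congr 1
  ext η
  simp only [mem_setOf_eq, mem_preimage, mem_Icc, Pi.le_def]
  exact ⟨fun h => ⟨fun i => (h i).1, fun i => (h i).2⟩, fun h i => ⟨h.1 i, h.2 i⟩⟩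

theorem meas_box (a b : Fin 3 → ℝ) : MeasurableSet {η : E3 | ∀ i, η i ∈ Icc (a i) (b i)} := by
  simp only [setOf_forall]
  apply MeasurableSet.iInter
  intro i
  exact measurableSet_Icc.preimage (by fun_prop : Measurable fun η : E3 => η i)

theorem norm_sq3 (η : E3) : ‖η‖ ^ 2 = η 0 ^ 2 + η 1 ^ 2 + η 2 ^ 2 := by
  rw [EuclideanSpace.real_norm_sq_eq, Fin.sum_univ_three]

theorem inner3 (η y : E3) : inner ℝ η y = η 0 * y 0 + η 1 * y 1 + η 2 * y 2 := by
  rw [PiLp.inner_apply, Fin.sum_univ_three]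
  simp only [RCLike.inner_apply, conj_trivial]
  ring

/-- a bump adapted to a box -/
theorem box_bump {u s : ℝ} (hu0 : 0 < u) (hu1 : u ≤ 1 / 100) (hs0 : 0 < s) (hs1 : s ≤ 1 / 100) :
    ∃ β : E3 → ℝ, ContDiff ℝ ∞ β ∧ (∀ η, 0 ≤ β η) ∧ (∀ η, β η ≤ 1) ∧
      (∀ η, β η ≠ 0 → |η 0 - 3 / 4| < u ∧ |η 1| < s ∧ |η 2| < s) ∧
      (∀ η, β η ≠ 0 → η 0 ≤ ‖η‖ ∧ ‖η‖ - η 0 ≤ 2 * s ^ 2) ∧ (∀ η, β η ≠ 0 → 3 / 8 ≤ ‖η‖ ∧ ‖η‖ ≤ 3 / 2) ∧
      HasCompactSupport β ∧ u * s * s ≤ ∫ ξ, β ξ := by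
  let b0 : ContDiffBump (3 / 4 : ℝ) := ⟨u / 2, u, by positivity, by linarith⟩
  let b1 : ContDiffBump (0 : ℝ) := ⟨s / 2, s, by positivity, by linarith⟩
  set β : E3 → ℝ := fun η => b0 (η 0) * b1 (η 1) * b1 (η 2) with hβ
  have hβd : ContDiff ℝ ∞ β := by
    have c : ∀ i : Fin 3, ContDiff ℝ ∞ fun η : E3 => η i := fun i => (EuclideanSpace.proj (𝕜 := ℝ) i).contDiff
    exact ((b0.contDiff.comp (c 0)).mul (b1.contDiff.comp (c 1))).mul (b1.contDiff.comp (c 2))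
  have hβ0 : ∀ η, 0 ≤ β η := fun η => mul_nonneg (mul_nonneg b0.nonneg b1.nonneg) b1.nonneg
  have hβ1 : ∀ η, β η ≤ 1 := fun η =>
    mul_le_one₀ (mul_le_one₀ b0.le_one b1.nonneg b1.le_one) b1.nonneg b1.le_one
  have hsp : ∀ η, β η ≠ 0 → |η 0 - 3 / 4| < u ∧ |η 1| < s ∧ |η 2| < s := by
    intro η hη
    have k0 : η 0 ∈ Function.support b0 := left_ne_zero_of_mul (left_ne_zero_of_mul hη)
    have k1 : η 1 ∈ Function.support b1 := right_ne_zero_of_mul (left_ne_zero_of_mul hη)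
    have k2 : η 2 ∈ Function.support b1 := right_ne_zero_of_mul hη
    rw [b0.support_eq, Metric.mem_ball, Real.dist_eq] at k0
    rw [b1.support_eq, Metric.mem_ball, Real.dist_eq, sub_zero] at k1 k2
    exact ⟨k0, k1, k2⟩
  have hfl : ∀ η, β η ≠ 0 → η 0 ≤ ‖η‖ ∧ ‖η‖ - η 0 ≤ 2 * s ^ 2 := by
    intro η hη
    obtain ⟨k0, k1, k2⟩ := hsp η hη
    have a0 := abs_lt.1 k0
    have a1 : η 1 ^ 2 ≤ s ^ 2 := by rw [← sq_abs]; exact pow_le_pow_left₀ (abs_nonneg _) k1.le 2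
    have a2 : η 2 ^ 2 ≤ s ^ 2 := by rw [← sq_abs]; exact pow_le_pow_left₀ (abs_nonneg _) k2.le 2
    have e := norm_sq3 η
    have hn := norm_nonneg η
    have a3 : η 0 ≤ ‖η‖ := by nlinarith [sq_nonneg (η 1), sq_nonneg (η 2)]
    refine ⟨a3, ?_⟩
    have a4 : (‖η‖ - η 0) * (‖η‖ + η 0) ≤ 2 * s ^ 2 := by nlinarith
    have a5 : 1 ≤ ‖η‖ + η 0 := by linarith [a0.1]
    nlinarith
  have hann : ∀ η, β η ≠ 0 → 3 / 8 ≤ ‖η‖ ∧ ‖η‖ ≤ 3 / 2 := by
    intro η hη
    have a0 := abs_lt.1 (hsp η hη).1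
    obtain ⟨a1, a2⟩ := hfl η hη
    have a3 : s ^ 2 ≤ (1 / 100) ^ 2 := pow_le_pow_left₀ hs0.le hs1 2
    constructor <;> linarith [a0.1, a0.2]
  have hβs : HasCompactSupport β := by
    apply HasCompactSupport.of_support_subset_isCompact (isCompact_closedBall (0:E3) 2)
    intro ξ hξ
    rw [Metric.mem_closedBall, dist_zero_right]
    linarith [(hann ξ hξ).2]
  have hβi : Integrable β := hβd.continuous.integrable_of_hasCompactSupport hβs
  have bsm : ContDiff ℝ ∞ (fun ξ : E3 => ((β ξ : ℝ) : ℂ)) := Complex.ofRealCLM.contDiff.comp hβd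
  set m : ℝ := ∫ ξ, β ξ with hm
  have hm0 : 0 ≤ m := integral_nonneg hβ0
  have hm2 : u * s * s ≤ m := by
    have h1 : ENNReal.ofReal (u * s * s) ≤ ENNReal.ofReal m := by
      have hv := vol_box ![3 / 4 - u / 2, -(s / 2), -(s / 2)] ![3 / 4 + u / 2, s / 2, s / 2]
      rw [Fin.prod_univ_three, ← ENNReal.ofReal_mul (by simp only [Matrix.cons_val_zero]; linarith), ← ENNReal.ofReal_mul (by
        simp only [Matrix.cons_val_zero, Matrix.cons_val_one]
        apply mul_nonneg <;> linarith)] at hv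
      have e : (u * s * s) = ((![3 / 4 + u / 2, s / 2, s / 2] : Fin 3 → ℝ) 0 -
          (![3 / 4 - u / 2, -(s / 2), -(s / 2)] : Fin 3 → ℝ) 0) * ((![3 / 4 + u / 2, s / 2, s / 2] : Fin 3 → ℝ) 1 -
          (![3 / 4 - u / 2, -(s / 2), -(s / 2)] : Fin 3 → ℝ) 1) * ((![3 / 4 + u / 2, s / 2, s / 2] : Fin 3 → ℝ) 2 -
          (![3 / 4 - u / 2, -(s / 2), -(s / 2)] : Fin 3 → ℝ) 2) := by
        simp only [Matrix.cons_val_zero, Matrix.cons_val_one, Matrix.cons_val]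
        ring
      rw [e, ← hv, hm, ofReal_integral_eq_lintegral_ofReal hβi (Eventually.of_forall hβ0), ← setLIntegral_one,
        ← lintegral_indicator (meas_box _ _)]
      apply lintegral_mono
      intro ξ
      simp only
      by_cases hξ : ξ ∈ {η : E3 | ∀ i, η i ∈ Icc ((![3 / 4 - u / 2, -(s / 2), -(s / 2)] : Fin 3 → ℝ) i)
          ((![3 / 4 + u / 2, s / 2, s / 2] : Fin 3 → ℝ) i)}
      · rw [indicator_of_mem hξ]
        have k0 := hξ 0
        have k1 := hξ 1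
        have k2 := hξ 2
        simp only [Matrix.cons_val_zero, Matrix.cons_val_one, Matrix.cons_val] at k0 k1 k2
        have j0 : b0 (ξ 0) = 1 := b0.one_of_mem_closedBall (by
          rw [Metric.mem_closedBall, Real.dist_eq, abs_le]
          exact ⟨by show -(u / 2) ≤ _; linarith [k0.1], by show _ ≤ u / 2; linarith [k0.2]⟩)
        have j1 : ∀ u ∈ Icc (-(s / 2)) (s / 2), b1 u = 1 := fun u hu => b1.one_of_mem_closedBall (by
          rw [Metric.mem_closedBall, Real.dist_eq, sub_zero, abs_le]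
          exact hu)
        rw [hβ]
        simp only
        rw [j0, j1 _ k1, j1 _ k2]
        simp
      · rw [indicator_of_notMem hξ]
        exact bot_le
    exact (ENNReal.ofReal_le_ofReal_iff hm0).1 h1
  exact ⟨β, hβd, hβ0, hβ1, hsp, hfl, hann, hβs, hm2⟩

/-- a wave packet -/
theorem packet_gen {p α : ℝ} (hp : 2 ≤ p) {q : ℝ≥0∞} (hq : q ≠ 0) (h : Loc p q α) : ∃ C : ℝ, 0 ≤ C ∧
    ∀ R w : ℝ, 1 ≤ R → 1 / 2 ≤ w → w ≤ R / 2 →
    ((3 / 8) * w ^ q.toReal⁻¹) ^ p * ((1 / 100) ^ 3 * R / w) ≤ (C * R ^ (α + q.toReal⁻¹)) ^ p := by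
  have hp0 : 0 < p := by linarith
  obtain ⟨C, hC, h⟩ := test hp0 hq h
  refine ⟨C, hC, ?_⟩
  set θ := q.toReal⁻¹ with hθ
  have hpi := Real.pi_pos
  have hpi4 := Real.pi_lt_d2
  intro R w hR hw1 hw2
  have hw0 : 0 < w := by linarith
  set u : ℝ := (1 / 200) / w with hu
  have hu0 : 0 < u := by positivity
  have huw : w * u = 1 / 200 := by rw [hu]; field_simp
  have hu1 : u ≤ 1 / 100 := by rw [hu, div_le_iff₀ hw0]; linarith
  have hR0 : 0 < R := by linarith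
  set r := Real.sqrt R with hr
  have hr0 : 0 < r := Real.sqrt_pos.2 hR0
  have hr1 : 1 ≤ r := Real.one_le_sqrt.2 hR
  have hr2 : r ^ 2 = R := Real.sq_sqrt hR0.le
  set s : ℝ := (1 / 100) / r with hs
  have hs0 : 0 < s := by positivity
  have hsr : s * r = 1 / 100 := div_mul_cancel₀ _ hr0.ne'
  have hs1 : s ≤ 1 / 100 := div_le_self (by norm_num) hr1
  have hs2 : R * s ^ 2 = (1 / 100) ^ 2 := by rw [← hr2, ← hsr]; ring
  obtain ⟨β, hβd, hβ0, hβ1, hsp, hfl, hann, hβs, hm2⟩ := box_bump hu0 hu1 hs0 hs1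
  have hβi : Integrable β := hβd.continuous.integrable_of_hasCompactSupport hβs
  have bsm : ContDiff ℝ ∞ (fun ξ : E3 => ((β ξ : ℝ) : ℂ)) := Complex.ofRealCLM.contDiff.comp hβd
  set m : ℝ := ∫ ξ, β ξ with hm
  have hm0 : 0 ≤ m := integral_nonneg hβ0
  have hmp : 0 < m := lt_of_lt_of_le (by positivity) hm2
  have hsup : ∀ x, ‖𝓕⁻ (fun ξ : E3 => ((β ξ : ℝ) : ℂ)) x‖ ≤ m := by
    intro x
    rw [Real.fourierInv_eq']
    refine (norm_integral_le_integral_norm _).trans (le_of_eq ?_)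
    rw [hm]
    congr 1
    ext ξ
    rw [norm_smul, Complex.norm_exp_ofReal_mul_I, one_mul, Complex.norm_real, Real.norm_of_nonneg (hβ0 ξ)]
  have hL2 := Lp_bump hβd.continuous hβi hβ0 hβ1 (b := fun ξ : E3 => ((β ξ : ℝ) : ℂ))
    (fun ξ => by rw [Complex.norm_real, Real.norm_of_nonneg (hβ0 ξ)]) bsm.continuous.measurable
  have hLp := interp_p hsup hL2 hp
  have h1 := h R hR _ bsm (fun η hη => hann η (by exact_mod_cast hη))
    _ (3 / 8 * m) w (meas_box ![-(3 / 2 * R), -r, -r] ![-R, r, r]) (by positivity) hw0 (by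
      intro y hy
      have k0 := hy 0
      have k1 := hy 1
      have k2 := hy 2
      simp only [Matrix.cons_val_zero, Matrix.cons_val_one, Matrix.cons_val] at k0 k1 k2
      refine ⟨-y 0, by linarith [k0.2], by linarith [k0.1], fun t ht => ?_⟩
      set ψ : E3 → ℝ := fun ξ => 2 * Real.pi * ((y 0 + t) * (ξ 0 - 3 / 4) + ξ 1 * y 1 + ξ 2 * y 2 + t * (‖ξ‖ - ξ 0))
        with hψ
      set W : E3 → ℂ := fun ξ => cexp (I * (ψ ξ : ℝ)) * 1 with hW
      set c0 : ℂ := cexp (I * ((2 * Real.pi * ((y 0 + t) * (3 / 4)) : ℝ) : ℂ)) with hc0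
      have hc0n : ‖c0‖ = 1 := by rw [hc0, mul_comm, Complex.norm_exp_ofReal_mul_I]
      have e1 : 𝓕⁻ (fun ξ : E3 => cexp (2 * Real.pi * I * (t * ‖ξ‖ : ℝ)) * ((β ξ : ℝ) : ℂ)) y =
          c0 * ∫ ξ, W ξ * ((β ξ : ℝ) : ℂ) := by
        rw [Real.fourierInv_eq', ← integral_const_mul]
        congr 1
        ext ξ
        rw [hc0, hW, hψ, smul_eq_mul, inner3]
        simp only
        rw [mul_one, ← mul_assoc, ← mul_assoc, ← Complex.exp_add, ← Complex.exp_add]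
        congr 2
        push_cast
        ring
      have hWc : Continuous W := by
        rw [hW, hψ]
        fun_prop
      have hWi : Integrable fun ξ => W ξ * ((β ξ : ℝ) : ℂ) := by
        apply (hWc.mul bsm.continuous).integrable_of_hasCompactSupport
        exact (hβs.comp_left (g := fun r : ℝ => (r : ℂ)) (by simp)).mul_left
      have hre : ∀ ξ, β ξ ≠ 0 → (3 / 8 : ℝ) ≤ (W ξ).re := by
        intro ξ hξ
        obtain ⟨j0, j1, j2⟩ := hsp ξ hξ
        obtain ⟨j3, j4⟩ := hfl ξ hξ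
        apply re_low _ (by simp)
        have ht0 : 0 ≤ t := by linarith [ht.1, k0.2]
        have i0 : |(y 0 + t) * (ξ 0 - 3 / 4)| ≤ 1 * (1 / 100) := by
          rw [abs_mul]
          refine le_trans (b := w * u) ?_ (by rw [huw]; norm_num)
          apply mul_le_mul _ j0.le (abs_nonneg _) hw0.le
          rw [abs_le]
          constructor <;> linarith [ht.1, ht.2]
        have i1 : |ξ 1 * y 1| ≤ 1 / 100 := by
          rw [abs_mul, ← hsr]
          exact mul_le_mul j1.le (abs_le.2 k1) (abs_nonneg _) hs0.le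
        have i2 : |ξ 2 * y 2| ≤ 1 / 100 := by
          rw [abs_mul, ← hsr]
          exact mul_le_mul j2.le (abs_le.2 k2) (abs_nonneg _) hs0.le
        have i3 : |t * (‖ξ‖ - ξ 0)| ≤ 4 * (1 / 100) ^ 2 := by
          rw [abs_of_nonneg (mul_nonneg ht0 (by linarith)), ← hs2]
          calc t * (‖ξ‖ - ξ 0) ≤ (2 * R) * (2 * s ^ 2) :=
                mul_le_mul (by linarith [ht.2, k0.1]) j4 (by linarith) (by positivity)
            _ = _ := by ring
        rw [hψ]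
        simp only
        rw [abs_mul, abs_of_pos (by positivity : 0 < 2 * Real.pi)]
        have h7 : |(y 0 + t) * (ξ 0 - 3 / 4) + ξ 1 * y 1 + ξ 2 * y 2 + t * (‖ξ‖ - ξ 0)| ≤
            1 * (1 / 100) + 1 / 100 + 1 / 100 + 4 * (1 / 100) ^ 2 :=
          (abs_add_le _ _).trans (add_le_add ((abs_add_le _ _).trans (add_le_add ((abs_add_le _ _).trans
            (add_le_add i0 i1)) i2)) i3)
        calc _ ≤ 2 * 3.15 * (1 * (1 / 100) + 1 / 100 + 1 / 100 + 4 * (1 / 100) ^ 2) :=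
              mul_le_mul (by linarith) h7 (abs_nonneg _) (by norm_num)
          _ ≤ 1 / 4 := by norm_num
      have h9 := low_int hβi hβ0 hWi hre hc0n
      rw [← e1] at h9
      exact h9)
  have hv : volume {η : E3 | ∀ i, η i ∈ Icc ((![-(3 / 2 * R), -r, -r] : Fin 3 → ℝ) i) ((![-R, r, r] : Fin 3 → ℝ) i)} =
      ENNReal.ofReal (2 * R ^ 2) := by
    rw [vol_box, Fin.prod_univ_three]
    simp only [Matrix.cons_val_zero, Matrix.cons_val_one, Matrix.cons_val]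
    rw [← ENNReal.ofReal_mul (by linarith), ← ENNReal.ofReal_mul (by apply mul_nonneg <;> linarith)]
    congr 1
    calc (-R - -(3 / 2 * R)) * (r - -r) * (r - -r) = 2 * R * r ^ 2 := by ring
      _ = _ := by rw [hr2]; ring
  have h2 := h1.trans (mul_le_mul' le_rfl hLp)
  rw [hv, ← ENNReal.ofReal_mul (by positivity), ← ENNReal.ofReal_mul (by positivity),
    ← ENNReal.ofReal_mul (by positivity)] at h2
  have h3 := (ENNReal.ofReal_le_ofReal_iff (by positivity)).1 h2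
  have e1 : (3 / 8 * m * w ^ θ) ^ p = ((3 / 8) * w ^ θ) ^ p * (m ^ (p - 2) * m * m) := by
    have e2 : m ^ p = m ^ (p - 2) * m * m := by
      conv_lhs => rw [show p = (p - 2) + 1 + 1 by ring]
      rw [Real.rpow_add hmp, Real.rpow_add hmp, Real.rpow_one]
    rw [← e2, ← Real.mul_rpow (by positivity) hm0]
    congr 1
    ring
  rw [e1, ← hm] at h3
  set Y : ℝ := ((3 / 8) * w ^ θ) ^ p with hY
  have hY0 : 0 < Y := by positivity
  set Z : ℝ := m ^ (p - 2) * m with hZ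
  have hZ0 : 0 < Z := by positivity
  have h4 : Z * (Y * ((1 / 100) ^ 3 * R / w)) ≤ Z * (C * R ^ (α + θ)) ^ p := by
    calc Z * (Y * ((1 / 100) ^ 3 * R / w)) = Y * (Z * (u * s * s)) * (2 * R ^ 2) := by
          have : (1 / 100 : ℝ) ^ 3 = 1 / 100 * (R * s ^ 2) := by rw [hs2]; ring
          rw [this, hu]
          field_simp
          ring
      _ ≤ Y * (Z * m) * (2 * R ^ 2) := by gcongr
      _ ≤ _ := h3.trans (le_of_eq (by ring))
  exact le_of_mul_le_mul_left h4 hZ0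

theorem packet_low {p α : ℝ} (hp : 2 ≤ p) {q : ℝ≥0∞} (hq : q ≠ 0) (h : Loc p q α) : 1 / p - q.toReal⁻¹ ≤ α := by
  have hp0 : 0 < p := by linarith
  obtain ⟨C, hC, h⟩ := packet_gen hp hq h
  set θ := q.toReal⁻¹ with hθ
  by_contra hcon
  push Not at hcon
  refine no_decay (K1 := ((3 / 8) * (1 / 2) ^ θ) ^ p * (2 * (1 / 100) ^ 3)) (K2 := C ^ p)
    (e := (α + θ) * p - 1) (by positivity) ?_ ?_
  · have h3 : (α + θ) * p < (1 / p) * p := by gcongr; linarith
    have h4 : (1 / p) * p = 1 := by field_simp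
    linarith
  intro R hR
  have hR0 : 0 < R := by linarith
  have h1 := h R (1 / 2) hR le_rfl (by linarith)
  rw [Real.mul_rpow hC (by positivity), ← Real.rpow_mul hR0.le] at h1
  rw [Real.rpow_sub hR0, Real.rpow_one, ← mul_div_assoc, le_div_iff₀ hR0]
  exact le_trans (le_of_eq (by ring)) h1

theorem static_low {p α : ℝ} (hp : 2 ≤ p) {q : ℝ≥0∞} (hq : q ≠ 0) (h : Loc p q α) : 0 ≤ α := by
  have hp0 : 0 < p := by linarith
  obtain ⟨C, hC, h⟩ := packet_gen hp hq h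
  set θ := q.toReal⁻¹ with hθ
  by_contra hcon
  push Not at hcon
  refine no_decay (K1 := ((3 / 8) * (1 / 2) ^ θ) ^ p * (2 * (1 / 100) ^ 3)) (K2 := C ^ p)
    (e := α * p) (by positivity) (mul_neg_of_neg_of_pos hcon hp0) ?_
  intro R hR
  have hR0 : 0 < R := by linarith
  have h1 := h R (R / 2) hR (by linarith) le_rfl
  have e1 : (3 / 8 * (R / 2) ^ θ) ^ p = (3 / 8 * (1 / 2) ^ θ) ^ p * (R ^ θ) ^ p := by
    rw [← Real.mul_rpow (by positivity) (by positivity), mul_assoc, ← Real.mul_rpow (by norm_num) hR0.le]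
    congr 3
    ring
  have e2 : (C * R ^ (α + θ)) ^ p = C ^ p * R ^ (α * p) * (R ^ θ) ^ p := by
    rw [Real.rpow_add hR0, Real.mul_rpow hC (by positivity), Real.mul_rpow (by positivity) (by positivity),
      ← Real.rpow_mul hR0.le α]
    ring
  have e3 : (1 / 100 : ℝ) ^ 3 * R / (R / 2) = 2 * (1 / 100) ^ 3 := by field_simp
  rw [e1, e2, e3] at h1
  have hZ : 0 < (R ^ θ) ^ p := by positivity
  exact le_of_mul_le_mul_right (le_trans (le_of_eq (by ring)) h1) hZ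

end Vale.Agent.N106
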