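import Mathlib

/-! # Definitions for local smoothing estimates in mixed norms

The definitions are written for a euclidean space `E` of dimension `d`; they are used for `E = ℝ³`. -/

open MeasureTheory Complex Set
open scoped ENNReal NNReal SchwartzMap

namespace Vale.Agent.N106.D

/-- three-dimensional euclidean space -/
abbrev R3 := EuclideanSpace ℝ (Fin 3)

variable (E : Type) [NormedAddCommGroup E] [InnerProductSpace ℝ E] [FiniteDimensional ℝ E]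
  [MeasurableSpace E] [BorelSpace E]

/-- the Fourier transform `∫ e^{-i x·ξ} f(x) dx` -/
noncomputable def fhat (f : 𝓢(E, ℂ)) (ξ : E) : ℂ :=
  ∫ x : E, cexp (-(I * ((inner ℝ x ξ : ℝ) : ℂ))) * f x

/-- the half-wave evolution `Uf(x,t) = (2π)^{-d} ∫ e^{i(x·ξ + t|ξ|)} f̂(ξ) dξ` -/
noncomputable def U (f : 𝓢(E, ℂ)) (x : E) (t : ℝ) : ℂ :=
  ((1 / (2 * Real.pi) ^ Module.finrank ℝ E : ℝ) : ℂ) *
    ∫ ξ : E, cexp (I * ((inner ℝ x ξ + t * ‖ξ‖ : ℝ) : ℂ)) * fhat E f ξ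

/-- the Fourier multiplier with symbol `m`: `(2π)^{-d} ∫ e^{i x·ξ} m(ξ) f̂(ξ) dξ` -/
noncomputable def mult (m : E → ℝ) (f : 𝓢(E, ℂ)) (x : E) : ℂ :=
  ((1 / (2 * Real.pi) ^ Module.finrank ℝ E : ℝ) : ℂ) *
    ∫ ξ : E, cexp (I * ((inner ℝ x ξ : ℝ) : ℂ)) * ((m ξ : ℂ) * fhat E f ξ)

/-- `‖J^α f‖_{L^p}`, where `J^α` has the symbol `(1 + |ξ|²)^{α/2}` -/
noncomputable def sob (p α : ℝ) (f : 𝓢(E, ℂ)) : ℝ≥0∞ :=
  eLpNorm (mult E (fun ξ => (1 + ‖ξ‖ ^ 2) ^ (α / 2)) f) (ENNReal.ofReal p) volume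

/-- the local smoothing estimate `‖Uf‖_{L^p(E × [1,2])} ≤ C ‖J^α f‖_{L^p(E)}` -/
def LS (p α : ℝ) : Prop :=
  ∃ C : ℝ≥0, ∀ f : 𝓢(E, ℂ),
    eLpNorm (fun z : E × ℝ => U E f z.1 z.2) (ENNReal.ofReal p) (volume.restrict (univ ×ˢ Icc 1 2)) ≤ C * sob E p α f

/-- the mixed norm `‖ ‖u(x,t)‖_{L^q(t ∈ [a,b])} ‖_{L^p(x ∈ E)}` -/
noncomputable def mix (p : ℝ) (q : ℝ≥0∞) (a b : ℝ) (u : E → ℝ → ℂ) : ℝ≥0∞ :=
  eLpNorm (fun x => eLpNorm (u x) q (volume.restrict (Icc a b))) (ENNReal.ofReal p) volume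

/-- the solution `cos(t√-Δ) f + (sin(t√-Δ) / √-Δ) g` of the wave equation with data `(f, g)` -/
noncomputable def W (f g : 𝓢(E, ℂ)) (x : E) (t : ℝ) : ℂ :=
  mult E (fun ξ => Real.cos (t * ‖ξ‖)) f x + mult E (fun ξ => Real.sin (t * ‖ξ‖) / ‖ξ‖) g x

/-- mixed norm estimate for the half-wave evolution -/
def Mixed (p : ℝ) (q : ℝ≥0∞) (α a b : ℝ) : Prop :=
  ∃ C : ℝ≥0, ∀ f : 𝓢(E, ℂ), mix E p q a b (U E f) ≤ C * sob E p α f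

/-- mixed norm estimate for the wave equation -/
def Wave (p : ℝ) (q : ℝ≥0∞) (α a b : ℝ) : Prop :=
  ∃ C : ℝ≥0, ∀ f g : 𝓢(E, ℂ), mix E p q a b (W E f g) ≤ C * (sob E p α f + sob E p (α - 1) g)

end Vale.Agent.N106.D
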