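import Vale.Agent.N106.F
import Vale.Agent.N106.Defs

/-! # Mixed norm local smoothing estimates: assembly -/

open MeasureTheory Complex Set Filter
open scoped ENNReal NNReal ContDiff FourierTransform SchwartzMap ComplexConjugate Topology

set_option linter.all false

namespace Vale.Agent.N106

open Vale.Agent.P117 Vale.Agent.P106 Vale.Agent.P106.H499

theorem U_uu (α : ℝ) (f : 𝓢(E3, ℂ)) (x : E3) (t : ℝ) : H499.D.U f x t = uu α (jS α f) t x :=
  G.LpgFin.halfWave_eq α f x t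

theorem J_jS (α : ℝ) (f : 𝓢(E3, ℂ)) : H499.D.J α f = (jS α f : E3 → ℂ) := by
  rw [H499.J_eq, G.LpgFin.bessel_eq]

theorem U_br (f : 𝓢(E3, ℂ)) : D.U E3 f = H499.D.U f := by
  ext x t
  unfold D.U
  rw [finrank_euclideanSpace_fin]
  rfl

theorem sob_br (p α : ℝ) (f : 𝓢(E3, ℂ)) : D.sob E3 p α f = eLpNorm (H499.D.J α f) (ENNReal.ofReal p) volume := by
  unfold D.sob D.mult
  rw [finrank_euclideanSpace_fin]
  rfl

theorem LS_br (p α : ℝ) : D.LS E3 p α ↔ H499.D.LS p α 1 2 := by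
  unfold D.LS H499.D.LS
  simp only [U_br, sob_br]

theorem W_eq (f g : 𝓢(E3, ℂ)) (x : E3) (t : ℝ) : D.W E3 f g x t = cs f t x + sn g t x := by
  have hpi := Real.pi_pos
  unfold D.W D.mult
  rw [finrank_euclideanSpace_fin]
  have h1 := norml (f : E3 → ℂ) (fun ξ => ((Real.cos (t * ‖ξ‖) : ℝ) : ℂ)) x
  have h2 := norml (g : E3 → ℂ) (fun ξ => ((Real.sin (t * ‖ξ‖) / ‖ξ‖ : ℝ) : ℂ)) x
  simp only [norm_smulE (show 0 < 2 * Real.pi by positivity)] at h1 h2
  exact congrArg₂ (· + ·) h1 h2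

theorem bf_jS (α : ℝ) (g : 𝓢(E3, ℂ)) (ξ : E3) : 𝓕 (g : E3 → ℂ) ξ = bf α ‖ξ‖ * 𝓕 (jS α g : E3 → ℂ) ξ := by
  rw [fourier_jS, ← mul_assoc, bf_jw, one_mul]

theorem theta_le {P : ℝ} (hP : 0 < P) {q : ℝ≥0∞} (hq : ENNReal.ofReal P ≤ q) : q.toReal⁻¹ ≤ 1 / P := by
  by_cases h : q = ⊤
  · rw [h]; simp; exact hP.le
  · have := ENNReal.toReal_mono h hq
    rw [ENNReal.toReal_ofReal hP.le] at this
    rw [one_div]
    exact inv_anti₀ hP this

theorem upper {P β α : ℝ} (hP : 1 ≤ P) {q : ℝ≥0∞} (hq : ENNReal.ofReal P ≤ q) (hβ : 0 ≤ β) (hB : Both P β)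
    (hα : β + 1 / P - q.toReal⁻¹ < α) (a b : ℝ) : D.Mixed E3 P q α a b ∧ D.Wave E3 P q α a b := by
  have hP0 : 0 < P := by linarith
  have hθ := theta_le hP0 hq
  have hα0 : 0 ≤ α := by linarith
  have hP1 := one_le_ofReal hP
  have hq1 := hP1.trans hq
  set τ : ℝ := max 1 (max |a| |b|) with hτ
  have hτ1 : 1 ≤ τ := le_max_left _ _
  have ha : |a| ≤ τ := (le_max_left _ _).trans (le_max_right _ _)
  have hb : |b| ≤ τ := (le_max_right _ _).trans (le_max_right _ _)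
  have hsub : Icc a b ⊆ Icc (-τ) τ := Icc_subset_Icc (by linarith [neg_abs_le a]) (by linarith [le_abs_self b])
  obtain ⟨C1, hC1, h1⟩ := mixed_uu hP hq hβ hB hα0 hα hτ1
  obtain ⟨C2, hC2, h2⟩ := mixed_sn hP hq hβ hB hθ hα hτ1
  constructor
  · refine ⟨Real.toNNReal C1, fun f => ?_⟩
    have d := ((h1 _ (adm_sch (jS α f)) (fint_sch _)).subset hsub).le hP0
    rw [ENNReal.ofReal_mul hC1, (adm_sch (jS α f)).ofReal_nrm hP1, ← J_jS] at d
    have e : H499.D.U f = fun x t => uu α (jS α f) t x := by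
      ext x t
      exact U_uu α f x t
    unfold D.mix
    rw [U_br, sob_br, e]
    rw [J_jS] at d ⊢
    exact d
  · refine ⟨Real.toNNReal (C1 + C2), fun f g => ?_⟩
    have n1 : 0 ≤ nrm (ENNReal.ofReal P) (jS α f : E3 → ℂ) volume := nrm_nonneg
    have n2 : 0 ≤ nrm (ENNReal.ofReal P) (jS (α - 1) g : E3 → ℂ) volume := nrm_nonneg
    have d1 := Dom_comb hP hq1 hα0 (fint_sch (jS α f)) (by positivity) (h1 _ (adm_sch (jS α f)) (fint_sch _))
      (1 / 2) (1 / 2) (A := 1 / 2) (by norm_num) (by norm_num)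
    have d2 := h2 g _ (fint_sch g) (adm_sch (jS (α - 1) g)) (bf_jS (α - 1) g)
    have cu := cont_uu hα0 (fint_sch (jS α f))
    have d3 := Dom.add hP hq1
      (F := fun t x => (1 / 2) * uu α (jS α f) t x + (1 / 2) * uu α (jS α f) (-t) x) (G := sn g)
      (fun x => (continuous_const.mul (cont_t cu x)).add (continuous_const.mul ((cont_t cu x).comp continuous_neg)))
      (fun x => cont_sn (fint_sch g) x) d1 d2
    have d := (d3.subset hsub).le hP0
    have e : D.W E3 f g = fun x t => (1 / 2) * uu α (jS α f) t x + (1 / 2) * uu α (jS α f) (-t) x + sn g t x := by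
      ext x t
      rw [W_eq, cs_eq hα0]
    unfold D.mix
    rw [e, sob_br, sob_br, J_jS, J_jS, ← (adm_sch (jS α f)).ofReal_nrm hP1, ← (adm_sch (jS (α - 1) g)).ofReal_nrm hP1]
    refine d.trans ?_
    change _ ≤ ENNReal.ofReal (C1 + C2) * _
    rw [← ENNReal.ofReal_add n1 n2, ← ENNReal.ofReal_mul (by positivity),
      ← ENNReal.ofReal_add (by positivity) (by positivity)]
    apply ENNReal.ofReal_le_ofReal
    nlinarith [mul_nonneg hC1 n2, mul_nonneg hC2 n1]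

theorem J_loc (γ : ℝ) {Ψ : E3 → ℂ} (hΨ : ContDiff ℝ ∞ Ψ) {p : ℝ≥0∞} (hp : 1 ≤ p) : ∃ C : ℝ, 0 ≤ C ∧ ∀ Λ : ℝ, 1 ≤ Λ →
    ∀ (f g : 𝓢(E3, ℂ)) (c : ℝ), 0 ≤ c →
    (∀ ξ, 𝓕 (g : E3 → ℂ) ξ = c * (Ψ (Λ⁻¹ • ξ) * q2 (‖ξ‖ / Λ) * 𝓕 (f : E3 → ℂ) ξ)) →
    eLpNorm (H499.D.J γ g) p volume ≤ ENNReal.ofReal (c * (C * Λ ^ γ)) * eLpNorm (f : E3 → ℂ) p volume := by
  obtain ⟨C, hC, h⟩ := kernel (-γ) hΨ
  refine ⟨C, hC, fun Λ hΛ f g c hc e => ?_⟩
  have hΛ0 : 0 < Λ := by linarith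
  obtain ⟨k, a1, -, -, a3, a4⟩ := h Λ hΛ0 f (adm_sch f)
  have a5 := a4 p hp
  rw [max_eq_right hΛ, neg_neg] at a5
  have e1 : H499.D.J γ g = (c:ℂ) • k := by
    ext x
    rw [J_jS, jS_eq, Pi.smul_apply, smul_eq_mul, a3, ← fi_const]
    apply fi_congr
    intro ξ
    have e2 : bf (-γ) ‖ξ‖ = jw γ ξ := by
      unfold bf jw
      rw [neg_neg]
    rw [e, e2]
    ring
  have n0 : 0 ≤ nrm p (f : E3 → ℂ) volume := nrm_nonneg
  rw [e1, eLpNorm_const_smul, ← a1.ofReal_nrm hp, ← (adm_sch f).ofReal_nrm hp, ← ofReal_norm, Complex.norm_real,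
    Real.norm_of_nonneg hc, ← ENNReal.ofReal_mul hc, ← ENNReal.ofReal_mul (by positivity)]
  apply ENNReal.ofReal_le_ofReal
  rw [mul_assoc]
  gcongr

theorem sch_data {h : E3 → ℂ} (hs : ContDiff ℝ ∞ h) (hc : HasCompactSupport h) :
    ∃ F : 𝓢(E3, ℂ), (∀ ξ, 𝓕 (F : E3 → ℂ) ξ = h ξ) ∧ (F : E3 → ℂ) = 𝓕⁻ h := by
  set S : 𝓢(E3, ℂ) := hc.toSchwartzMap hs with hS
  have hSc : (S : E3 → ℂ) = h := rfl
  refine ⟨𝓕⁻ S, ?_, ?_⟩
  · intro ξ
    have : 𝓕 (𝓕⁻ S) = S := by simp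
    rw [← SchwartzMap.fourier_coe, this, hSc]
  · rw [SchwartzMap.fourierInv_coe, hSc]

/-- the symbol of the derivative on the annulus -/
noncomputable def X4 (η : E3) : ℂ := 2 * Real.pi * I * (‖η‖ : ℝ) * q2 ‖η‖

theorem contDiff_X4 : ContDiff ℝ ∞ X4 := by
  have h1 : ContDiff ℝ ∞ (fun r : ℝ => 2 * Real.pi * I * (r : ℂ) * q2 r) :=
    (contDiff_const.mul Complex.ofRealCLM.contDiff).mul contDiff_q2
  exact contDiff_radial h1 (by norm_num : (0:ℝ) < 1/4) (fun t ht => by rw [q2_left ht, mul_zero])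

theorem ck_sk (t r : ℝ) : ck t r + sk t r * (2 * Real.pi * I * (r : ℝ)) = cexp (2 * Real.pi * I * (t * r : ℝ)) := by
  have e2 : (2 * Real.pi * I * (t * r : ℝ) : ℂ) = ((t * (2 * Real.pi * r) : ℝ) : ℂ) * I := by push_cast; ring
  rw [e2, Complex.exp_mul_I, ← Complex.ofReal_cos, ← Complex.ofReal_sin]
  unfold ck sk
  congr 1
  by_cases hr : r = 0
  · rw [hr]; simp
  · have h1 : ((r : ℝ) : ℂ) ≠ 0 := by exact_mod_cast hr
    have h2 : ((Real.pi : ℝ) : ℂ) ≠ 0 := by exact_mod_cast Real.pi_pos.ne'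
    rw [Complex.ofReal_div]
    set S := ((Real.sin (t * (2 * Real.pi * r)) : ℝ) : ℂ)
    push_cast
    field_simp

theorem loc_of {p α : ℝ} (hp : 1 ≤ p) {q : ℝ≥0∞} (h : D.Mixed E3 p q α 1 2 ∨ D.Wave E3 p q α 1 2) : Loc p q α := by
  have hP1 := one_le_ofReal hp
  obtain ⟨C1, hC1, k1⟩ := J_loc α (Ψ := fun _ => 1) contDiff_const hP1
  obtain ⟨C2, hC2, k2⟩ := J_loc (α - 1) contDiff_X4 hP1
  have key : ∀ Λ : ℝ, 1 ≤ Λ → ∀ b : E3 → ℂ, ContDiff ℝ ∞ b → (∀ η, b η ≠ 0 → 3 / 8 ≤ ‖η‖ ∧ ‖η‖ ≤ 3 / 2) →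
      ∃ f g : 𝓢(E3, ℂ), (f : E3 → ℂ) = 𝓕⁻ (dil Λ b) ∧
        (H499.D.U f = fun x (t : ℝ) => 𝓕⁻ (fun ξ => cexp (2 * Real.pi * I * (t * ‖ξ‖ : ℝ)) * dil Λ b ξ) x) ∧
        D.W E3 f g = H499.D.U f ∧
        eLpNorm (H499.D.J α f) (ENNReal.ofReal p) volume ≤
          ENNReal.ofReal (C1 * Λ ^ α) * eLpNorm (f : E3 → ℂ) (ENNReal.ofReal p) volume ∧
        eLpNorm (H499.D.J (α - 1) g) (ENNReal.ofReal p) volume ≤
          ENNReal.ofReal (C2 * Λ ^ α) * eLpNorm (f : E3 → ℂ) (ENNReal.ofReal p) volume := by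
    intro Λ hΛ b hb hs
    have hΛ0 : 0 < Λ := by linarith
    have hn : ∀ ξ : E3, ‖Λ⁻¹ • ξ‖ = ‖ξ‖ / Λ := by
      intro ξ
      rw [norm_smulE (inv_pos.2 hΛ0), div_eq_inv_mul]
    have c0 : ContDiff ℝ ∞ (fun y : E3 => Λ⁻¹ • y) := by fun_prop
    have c1 : ContDiff ℝ ∞ (dil Λ b) := hb.comp c0
    have c2 : HasCompactSupport (dil Λ b) := by
      apply compact_of_supp (R := 3 / 2 * Λ)
      intro ξ hξ
      have := (hs _ hξ).2
      rw [hn, div_le_iff₀ hΛ0] at this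
      exact this
    have hq2 : ∀ ξ, q2 (‖ξ‖ / Λ) * dil Λ b ξ = dil Λ b ξ := by
      intro ξ
      by_cases h0 : dil Λ b ξ = 0
      · rw [h0, mul_zero]
      · have := hs _ h0
        rw [hn] at this
        rw [q2_one this.1 this.2, one_mul]
    obtain ⟨f, f1, f2⟩ := sch_data c1 c2
    obtain ⟨g, g1, g2⟩ := sch_data (h := fun ξ => (Λ:ℂ) * (X4 (Λ⁻¹ • ξ) * dil Λ b ξ))
      (contDiff_const.mul ((contDiff_X4.comp c0).mul c1)) c2.mul_left.mul_left
    have g3 : ∀ ξ, 𝓕 (g : E3 → ℂ) ξ = 2 * Real.pi * I * (‖ξ‖ : ℝ) * 𝓕 (f : E3 → ℂ) ξ := by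
      intro ξ
      rw [g1, f1]
      unfold X4
      rw [hn, mul_assoc _ (q2 _), hq2]
      have : (Λ:ℂ) ≠ 0 := by exact_mod_cast hΛ0.ne'
      push_cast
      field_simp
    have u1 : H499.D.U f = fun x (t : ℝ) => 𝓕⁻ (fun ξ => cexp (2 * Real.pi * I * (t * ‖ξ‖ : ℝ)) * dil Λ b ξ) x := by
      ext x t
      rw [U_uu 0, uu_jS]
      exact fi_congr (fun ξ => by rw [f1]) x
    refine ⟨f, g, f2, u1, ?_, ?_, ?_⟩
    · ext x t
      rw [W_eq, U_uu 0, uu_jS]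
      unfold cs sn
      have i1 : Integrable fun ξ : E3 => ck t ‖ξ‖ * 𝓕 (f : E3 → ℂ) ξ :=
        (fint_sch f).bdd_mul (c := 1) (Measurable.aestronglyMeasurable (by unfold ck; fun_prop))
          (Eventually.of_forall fun ξ => by unfold ck; rw [Complex.norm_real]; exact Real.abs_cos_le_one _)
      have i2 : Integrable fun ξ : E3 => sk t ‖ξ‖ * 𝓕 (g : E3 → ℂ) ξ :=
        (fint_sch g).bdd_mul (c := |t|) (meas_sk t).aestronglyMeasurable
          (Eventually.of_forall fun ξ => norm_sk_le t (norm_nonneg _))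
      rw [← fi_add i1 i2]
      apply fi_congr
      intro ξ
      rw [g3, ← ck_sk]
      ring
    · have := k1 Λ hΛ f f 1 zero_le_one (fun ξ => by rw [f1, mul_assoc, hq2]; simp)
      rwa [one_mul] at this
    · have := k2 Λ hΛ f g Λ hΛ0.le (fun ξ => by rw [g1, f1, mul_assoc, hq2])
      have e : Λ * (C2 * Λ ^ (α - 1)) = C2 * Λ ^ α := by
        rw [Real.rpow_sub hΛ0, Real.rpow_one]
        field_simp
      rwa [e] at this
  rcases h with ⟨C, h⟩ | ⟨C, h⟩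
  · refine ⟨C * C1, by positivity, fun Λ hΛ b hb hs => ?_⟩
    obtain ⟨f, g, a1, a2, a3, a4, a5⟩ := key Λ hΛ b hb hs
    have h1 := h f
    rw [U_br, sob_br, a2] at h1
    refine le_trans h1 ((mul_le_mul' le_rfl a4).trans (le_of_eq ?_))
    rw [a1, ← mul_assoc, mul_assoc (C:ℝ), ENNReal.ofReal_mul C.coe_nonneg, ENNReal.ofReal_coe_nnreal]
  · refine ⟨C * (C1 + C2), by positivity, fun Λ hΛ b hb hs => ?_⟩
    obtain ⟨f, g, a1, a2, a3, a4, a5⟩ := key Λ hΛ b hb hs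
    have hΛ0 : 0 < Λ := by linarith
    have h1 := h f g
    rw [sob_br, sob_br, a3, a2] at h1
    refine le_trans h1 ((mul_le_mul' le_rfl (add_le_add a4 a5)).trans (le_of_eq ?_))
    rw [a1, ← add_mul, ← ENNReal.ofReal_add (by positivity) (by positivity), ← add_mul, ← mul_assoc,
      mul_assoc (C:ℝ), ENNReal.ofReal_mul C.coe_nonneg, ENNReal.ofReal_coe_nnreal]

theorem mix_lower {p : ℝ} (hp : 0 < p) {q q' : ℝ≥0∞} (hq : 1 ≤ q) (hqq : q ≤ q') (a b : ℝ) :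
    ∃ c : ℝ≥0, ∀ u : E3 → ℝ → ℂ, (∀ x, Continuous (u x)) → D.mix E3 p q a b u ≤ c * D.mix E3 p q' a b u := by
  have hθ : 0 ≤ 1 / q.toReal - 1 / q'.toReal := by
    by_cases h : q' = ⊤
    · rw [h]; simp
    · have h1 : q ≠ ⊤ := ne_top_of_le_ne_top h hqq
      have h2 := ENNReal.toReal_mono h hqq
      have h3 := ENNReal.toReal_mono h1 hq
      rw [ENNReal.toReal_one] at h3
      have := one_div_le_one_div_of_le (by linarith) h2
      linarith
  set c := ENNReal.ofReal (b - a) ^ (1 / q.toReal - 1 / q'.toReal) with hc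
  have hct : c ≠ ⊤ := ENNReal.rpow_ne_top_of_nonneg hθ ENNReal.ofReal_ne_top
  refine ⟨c.toNNReal, fun u hu => ?_⟩
  rw [ENNReal.coe_toNNReal hct]
  unfold D.mix
  have hp' : ENNReal.ofReal p ≠ 0 := by simpa using hp
  rw [eLpNorm_eq_lintegral_rpow_enorm_toReal hp' ENNReal.ofReal_ne_top,
    eLpNorm_eq_lintegral_rpow_enorm_toReal hp' ENNReal.ofReal_ne_top, ENNReal.toReal_ofReal hp.le]
  calc _ ≤ (∫⁻ x, c ^ p * ‖eLpNorm (u x) q' (volume.restrict (Icc a b))‖ₑ ^ p) ^ (1 / p) := by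
        gcongr with x
        rw [← ENNReal.mul_rpow_of_nonneg _ _ hp.le]
        apply ENNReal.rpow_le_rpow _ hp.le
        have h := eLpNorm_le_eLpNorm_mul_rpow_measure_univ (μ := volume.restrict (Icc a b)) hqq
          (hu x).aestronglyMeasurable
        rw [Measure.restrict_apply_univ, Real.volume_Icc, mul_comm] at h
        exact h
    _ = _ := by
        rw [lintegral_const_mul' _ _ (ENNReal.rpow_ne_top_of_nonneg hp.le hct),
          ENNReal.mul_rpow_of_nonneg _ _ (by positivity), ← ENNReal.rpow_mul, mul_one_div_cancel hp.ne',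
          ENNReal.rpow_one]

theorem upper_low {P β α : ℝ} (hP : 1 ≤ P) {q : ℝ≥0∞} (hq1 : 1 ≤ q) (hq : q ≤ ENNReal.ofReal P) (hβ : 0 ≤ β)
    (hB : Both P β) (hα : β < α) (a b : ℝ) : D.Mixed E3 P q α a b ∧ D.Wave E3 P q α a b := by
  have hP0 : 0 < P := by linarith
  obtain ⟨⟨C1, h1⟩, ⟨C2, h2⟩⟩ := upper (α := α) hP le_rfl hβ hB (by
    rw [ENNReal.toReal_ofReal hP0.le, one_div]; linarith) a b
  obtain ⟨c, hc⟩ := mix_lower hP0 hq1 hq a b
  have cu : ∀ (f : 𝓢(E3, ℂ)) (x : E3), Continuous fun t => uu 0 (jS 0 f) t x :=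
    fun f x => cont_t (cont_uu le_rfl (fint_sch (jS 0 f))) x
  constructor
  · refine ⟨c * C1, fun f => (hc _ fun x => ?_).trans ?_⟩
    · rw [U_br]
      exact (cu f x).congr fun t => (U_uu 0 f x t).symm
    · rw [ENNReal.coe_mul, mul_assoc]
      exact mul_le_mul' le_rfl (h1 f)
  · refine ⟨c * C2, fun f g => (hc _ fun x => ?_).trans ?_⟩
    · have h3 := (((continuous_const (y := (1 / 2 : ℂ))).mul (cu f x)).add
        ((continuous_const (y := (1 / 2 : ℂ))).mul ((cu f x).comp continuous_neg))).add (cont_sn (fint_sch g) x)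
      refine h3.congr fun t => ?_
      rw [W_eq, cs_eq le_rfl]
      rfl
    · rw [ENNReal.coe_mul, mul_assoc]
      exact mul_le_mul' le_rfl (h2 f g)

/-- **everything from Question 1** -/
theorem all_of_question1 (h : Stmt.Question1) :
    (∀ p α : ℝ, 2 < p → max 0 (1 - 3 / p) < α → D.LS E3 p α) ∧
    (∀ p : ℝ, 2 < p → IsGLB {α : ℝ | D.LS E3 p α} (max 0 (1 - 3 / p))) ∧
    (∀ (p : ℝ) (q : ℝ≥0∞) (α : ℝ), 2 < p → 1 ≤ q →
      (max 0 (1 - 3 / p) + max 0 (1 / p - (1 / q).toReal) < α →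
        ∀ a b : ℝ, D.Mixed E3 p q α a b ∧ D.Wave E3 p q α a b) ∧
      (α < max 0 (1 - 3 / p) + max 0 (1 / p - (1 / q).toReal) → ¬ D.Mixed E3 p q α 1 2 ∧ ¬ D.Wave E3 p q α 1 2)) := by
  obtain ⟨h1, -, h3⟩ := H499.all_of_question1 h
  simp only [LS_br]
  refine ⟨fun p α hp hα => h1 p α 1 2 hp hα, h3, fun p q α hp hq => ?_⟩
  have hp0 : 0 < p := by linarith
  rw [one_div q, ENNReal.toReal_inv]
  constructor
  · intro hα a b
    set m := max 0 (1 - 3 / p) with hm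
    have hm0 : 0 ≤ m := le_max_left _ _
    set k := max 0 (1 / p - q.toReal⁻¹) with hk
    have hk0 : 0 ≤ k := le_max_left _ _
    have hk1 : 1 / p - q.toReal⁻¹ ≤ k := le_max_right _ _
    set d := α - (m + k) with hd
    have hd0 : 0 < d := by linarith
    have hB : Both p (m + d / 2) := fun τ hτ => both_pow hp (e := m + d / 4) (by linarith) (by linarith)
      (G.LpgFin.StGL_of_LS (by linarith) ((Stmt.LS_iff _ _).1 (h p _ hp (by linarith)))) hτ
    rcases le_total (ENNReal.ofReal p) q with hq' | hq'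
    · exact upper (by linarith) hq' (by linarith) hB (by linarith) a b
    · exact upper_low (by linarith) hq hq' (by linarith) hB (by linarith) a b
  · intro hα
    have hq0 : q ≠ 0 := (zero_lt_one.trans_le hq).ne'
    have key : ¬ Loc p q α := by
      intro hL
      have a1 := focus_low hp.le hq0 hL
      have a2 := packet_low hp.le hq0 hL
      have a3 := static_low hp.le hq0 hL
      have a4 := chirp_low hp.le hq0 hL
      have e : 3 / p = 2 / p + 1 / p := by ring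
      rcases le_total 0 (1 - 3 / p) with h0 | h0 <;> rcases le_total 0 (1 / p - q.toReal⁻¹) with h5 | h5
      · rw [max_eq_right h0, max_eq_right h5] at hα
        linarith
      · rw [max_eq_right h0, max_eq_left h5] at hα
        linarith
      · rw [max_eq_left h0, max_eq_right h5] at hα
        linarith
      · rw [max_eq_left h0, max_eq_left h5] at hα
        linarith
    exact ⟨fun h => key (loc_of (by linarith) (Or.inl h)), fun h => key (loc_of (by linarith) (Or.inr h))⟩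

end Vale.Agent.N106
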