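import Vale.Agent.N106.D

/-! # Sharpness for small time exponents: waves which stay focused -/

open MeasureTheory Complex Set Filter
open scoped ENNReal NNReal ContDiff FourierTransform SchwartzMap ComplexConjugate Topology

set_option linter.all false

namespace Vale.Agent.N106

open Vale.Agent.P117 Vale.Agent.P106 Vale.Agent.P106.H499

/-- area of the unit disc -/
noncomputable def kap : ℝ := volume.real (Metric.ball (0 : EuclideanSpace ℝ (Fin 2)) 1)

theorem kap_nonneg : 0 ≤ kap := measureReal_nonneg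

theorem plane (g : ℝ → ℂ) :
    ∫ u : Fin 2 → ℝ, g (u 0 ^ 2 + u 1 ^ 2) = (kap : ℂ) * ∫ v in Ioi (0:ℝ), g v := by
  have h1 := (PiLp.volume_preserving_toLp (Fin 2)).integral_comp (MeasurableEquiv.toLp 2 (Fin 2 → ℝ)).measurableEmbedding
    (fun x : EuclideanSpace ℝ (Fin 2) => g (‖x‖ ^ 2))
  have h2 := integral_fun_norm_addHaar (volume : Measure (EuclideanSpace ℝ (Fin 2))) (fun r : ℝ => g (r ^ 2))
  have h3 := integral_comp_rpow_Ioi_of_pos (g := g) (p := 2) (by norm_num)
  have e1 : ∀ u : Fin 2 → ℝ, ‖(WithLp.toLp 2 u : EuclideanSpace ℝ (Fin 2))‖ ^ 2 = u 0 ^ 2 + u 1 ^ 2 := by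
    intro u
    rw [EuclideanSpace.real_norm_sq_eq, Fin.sum_univ_two]
  have h4 : ∫ u : Fin 2 → ℝ, g (u 0 ^ 2 + u 1 ^ 2) = ∫ x : EuclideanSpace ℝ (Fin 2), g (‖x‖ ^ 2) := by
    rw [← h1]
    congr 1
    ext u
    rw [e1]
  rw [h4, h2, ← h3]
  simp only [finrank_euclideanSpace, Fintype.card_fin]
  have e2 : ∀ y : ℝ, ((2:ℝ) * y ^ ((2:ℝ) - 1)) • g (y ^ (2:ℝ)) = (2:ℂ) * (y ^ (2 - 1) • g (y ^ 2)) := by
    intro y
    rw [Real.rpow_two, show (2:ℝ) - 1 = 1 by norm_num, Real.rpow_one, Complex.real_smul, Complex.real_smul]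
    push_cast
    ring
  simp_rw [e2]
  rw [integral_const_mul]
  unfold kap
  rw [nsmul_eq_mul, Complex.real_smul]
  push_cast
  ring

/-- slicing formula for radial functions -/
theorem slice {a : ℝ → ℂ} (hi : Integrable fun η : E3 => a (‖η‖ ^ 2)) (y : E3) :
    𝓕⁻ (fun η : E3 => a (‖η‖ ^ 2)) y =
      ∫ s : ℝ, cexp ((2 * Real.pi * (s * ‖y‖) : ℝ) * I) * ((kap : ℂ) * ∫ v in Ioi (0:ℝ), a (s ^ 2 + v)) := by
  set w : E3 := ‖y‖ • uv with hw
  have hn : ‖w‖ = ‖y‖ := by rw [hw, norm_smul, norm_uv, mul_one, norm_norm]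
  have h1 := Real.fourierInv_comp_linearIsometry (Submodule.reflection (ℝ ∙ (w - y))ᗮ) (fun η : E3 => a (‖η‖ ^ 2)) w
  rw [Submodule.reflection_sub hn] at h1
  have h2 : (fun η : E3 => a (‖η‖ ^ 2)) ∘ (Submodule.reflection (ℝ ∙ (w - y))ᗮ) = fun η : E3 => a (‖η‖ ^ 2) := by
    ext η
    simp only [Function.comp, LinearIsometryEquiv.norm_map]
  rw [← h1, h2, Real.fourierInv_eq']
  have e0 : ∀ η : E3, inner ℝ η w = η 0 * ‖y‖ := by
    intro η
    rw [inner3, hw]
    unfold uv
    simp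
  simp_rw [e0]
  set G : E3 → ℂ := fun η => cexp ((2 * Real.pi * (η 0 * ‖y‖) : ℝ) * I) • a (‖η‖ ^ 2) with hG
  have hGi : Integrable G := by
    have hc : Continuous fun η : E3 => cexp ((2 * Real.pi * (η 0 * ‖y‖) : ℝ) * I) := by fun_prop
    refine Integrable.mono' hi.norm (hc.aestronglyMeasurable.smul hi.1) ?_
    filter_upwards with η
    rw [hG]
    simp only
    rw [norm_smul, Complex.norm_exp_ofReal_mul_I, one_mul]
  set e : ℝ × (Fin 2 → ℝ) ≃ᵐ E3 :=
    (MeasurableEquiv.piFinSuccAbove (fun _ : Fin 3 => ℝ) 0).symm.trans (MeasurableEquiv.toLp 2 (Fin 3 → ℝ)) with he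
  have hmp : MeasurePreserving e volume volume :=
    (PiLp.volume_preserving_toLp (Fin 3)).comp (volume_preserving_piFinSuccAbove (fun _ : Fin 3 => ℝ) 0).symm
  have hi2 : Integrable (fun z => G (e z)) := (hmp.integrable_comp_emb e.measurableEmbedding).2 hGi
  rw [← hmp.integral_comp' G, Measure.volume_eq_prod, integral_prod _ (by rw [← Measure.volume_eq_prod]; exact hi2)]
  congr 1
  ext s
  rw [← plane (fun v => a (s ^ 2 + v)), ← integral_const_mul]
  congr 1
  ext u
  have k0 : (e (s, u)) 0 = s := rfl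
  have k1 : (e (s, u)) 1 = u 0 := rfl
  have k2 : (e (s, u)) 2 = u 1 := rfl
  rw [hG]
  simp only
  rw [norm_sq3, k0, k1, k2, smul_eq_mul, add_assoc]

theorem no_decay' {K1 K2 e : ℝ} (h1 : 0 < K1) (he : e < 0) (h : ∀ R : ℝ, 100 ≤ R → K1 ≤ K2 * R ^ e) : False := by
  refine no_decay (K2 := K2 * 100 ^ e) h1 he fun R hR => ?_
  have := h (100 * R) (by linarith)
  rwa [Real.mul_rpow (by norm_num) (by linarith), ← mul_assoc] at this

/-- a fixed bump -/
noncomputable def ps : ContDiffBump (0 : ℝ) := ⟨1 / 8, 1 / 4, by norm_num, by norm_num⟩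

/-- two bumps -/
noncomputable def ph (σ : ℝ) : ℝ := (ps σ + ps (σ - 3 / 4)) / 2

theorem ps_zero {σ : ℝ} (h : 1 / 4 ≤ |σ|) : ps σ = 0 :=
  ps.zero_of_le_dist (by rw [Real.dist_eq, sub_zero]; exact h)

theorem ph_supp {σ : ℝ} (h : ph σ ≠ 0) : |σ| < 1 := by
  by_contra hc
  push Not at hc
  apply h
  unfold ph
  rw [ps_zero (by linarith), ps_zero]
  · simp
  · rcases le_abs'.1 hc with h1 | h1
    · exact le_abs'.2 (Or.inl (by linarith))
    · exact le_abs'.2 (Or.inr (by linarith))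

theorem ph_nonneg (σ : ℝ) : 0 ≤ ph σ := by
  unfold ph
  have := ps.nonneg (x := σ)
  have := ps.nonneg (x := σ - 3 / 4)
  positivity

theorem ph_le (σ : ℝ) : ph σ ≤ 1 := by
  unfold ph
  linarith [ps.le_one (x := σ), ps.le_one (x := σ - 3 / 4)]

theorem contDiff_ph : ContDiff ℝ ∞ ph := by
  unfold ph
  exact (ps.contDiff.add (ps.contDiff.comp (contDiff_id.sub contDiff_const))).div_const 2

/-- profile of the data -/
noncomputable def pa (R v : ℝ) : ℂ := cexp (I * ((-(2 * Real.pi * (2 * R / 3 * v)) : ℝ) : ℂ)) * (ph (R * (v - 9 / 16)) : ℝ)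

theorem contDiff_pa (R : ℝ) : ContDiff ℝ ∞ (pa R) := by
  unfold pa
  have h0 : ContDiff ℝ ∞ fun v : ℝ => -(2 * Real.pi * (2 * R / 3 * v)) := by fun_prop
  have h1 : ContDiff ℝ ∞ fun v : ℝ => ((-(2 * Real.pi * (2 * R / 3 * v)) : ℝ) : ℂ) :=
    Complex.ofRealCLM.contDiff.comp h0
  exact (contDiff_const.mul h1).cexp.mul (Complex.ofRealCLM.contDiff.comp (contDiff_ph.comp (by fun_prop)))

theorem norm_pa (R v : ℝ) : ‖pa R v‖ = ph (R * (v - 9 / 16)) := by
  unfold pa
  rw [norm_mul, mul_comm I, Complex.norm_exp_ofReal_mul_I, one_mul, Complex.norm_real, Real.norm_of_nonneg (ph_nonneg _)]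

theorem pa_supp {R v : ℝ} (hR : 0 < R) (h : ph (R * (v - 9 / 16)) ≠ 0) : |v - 9 / 16| < R⁻¹ := by
  have h1 := ph_supp h
  rw [abs_mul, abs_of_pos hR] at h1
  rw [← one_div, lt_div_iff₀ hR]
  linarith

theorem pa_int {R : ℝ} (hR : 0 < R) : ∫ v, pa R v = 0 := by
  set c : ℝ → ℂ := fun v => cexp (I * ((-(2 * Real.pi * (2 * R / 3 * v)) : ℝ) : ℂ)) * (ps (R * (v - 9 / 16)) : ℝ) with hc
  have hcc : Continuous c := by
    have := ps.continuous
    rw [hc]
    fun_prop
  have hcs : HasCompactSupport c := by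
    apply HasCompactSupport.of_support_subset_isCompact (isCompact_Icc (a := 9 / 16 - R⁻¹) (b := 9 / 16 + R⁻¹))
    intro v hv
    by_contra h
    apply hv
    have h2 : 1 / 4 ≤ |R * (v - 9 / 16)| := by
      rw [abs_mul, abs_of_pos hR]
      have h3 : R⁻¹ ≤ |v - 9 / 16| := by
        by_contra h4
        push Not at h4
        have := abs_lt.1 h4
        exact h ⟨by linarith [this.1], by linarith [this.2]⟩
      calc (1 / 4 : ℝ) ≤ R * R⁻¹ := by rw [mul_inv_cancel₀ hR.ne']; norm_num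
        _ ≤ _ := by gcongr
    rw [hc]
    simp only
    rw [ps_zero h2]
    simp
  have hci : Integrable c := hcc.integrable_of_hasCompactSupport hcs
  have e1 : ∀ v, pa R v = (1 / 2) * (c v - c (v - 3 / (4 * R))) := by
    intro v
    unfold pa ph
    rw [hc]
    simp only
    have e2 : R * (v - 3 / (4 * R) - 9 / 16) = R * (v - 9 / 16) - 3 / 4 := by field_simp; ring
    have e3 : cexp (I * ((-(2 * Real.pi * (2 * R / 3 * (v - 3 / (4 * R)))) : ℝ) : ℂ)) =
        -cexp (I * ((-(2 * Real.pi * (2 * R / 3 * v)) : ℝ) : ℂ)) := by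
      have e4 : -(2 * Real.pi * (2 * R / 3 * (v - 3 / (4 * R)))) = -(2 * Real.pi * (2 * R / 3 * v)) + Real.pi := by
        field_simp; ring
      rw [e4, Complex.ofReal_add, mul_add, Complex.exp_add, mul_comm I (Real.pi : ℂ), Complex.exp_pi_mul_I]
      ring
    rw [e2, e3]
    push_cast
    ring
  simp_rw [e1]
  rw [integral_const_mul, integral_sub hci (hci.comp_sub_right _), integral_sub_right_eq_self c, sub_self, mul_zero]

theorem pa_sup {R : ℝ} (hR : 100 ≤ R) (hi : Integrable fun η : E3 => pa R (‖η‖ ^ 2)) (y : E3) :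
    ‖𝓕⁻ (fun η : E3 => pa R (‖η‖ ^ 2)) y‖ ≤ 16 * kap * (R ^ 2)⁻¹ := by
  have hR0 : 0 < R := by linarith
  have hk := kap_nonneg
  have hRi : R⁻¹ ≤ 1 / 100 := by rw [one_div]; exact inv_anti₀ (by norm_num) hR
  have hRi0 : 0 < R⁻¹ := by positivity
  have hz : ∀ v, R⁻¹ ≤ |v - 9 / 16| → pa R v = 0 := by
    intro v hv
    rw [← norm_eq_zero, norm_pa]
    by_contra h
    exact absurd (pa_supp hR0 h) (not_lt.2 hv)
  rw [slice hi]
  set S1 := Icc (3 / 4 - 2 * R⁻¹) (3 / 4 + 2 * R⁻¹) with hS1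
  set S2 := Icc (-(3 / 4) - 2 * R⁻¹) (-(3 / 4) + 2 * R⁻¹) with hS2
  set c := kap * (2 * R⁻¹) with hc
  have hc0 : 0 ≤ c := by positivity
  have i1 : Integrable (S1.indicator fun _ => c) := (integrable_indicator_iff measurableSet_Icc).2 (by simp [hS1])
  have i2 : Integrable (S2.indicator fun _ => c) := (integrable_indicator_iff measurableSet_Icc).2 (by simp [hS2])
  refine (norm_integral_le_of_norm_le (i1.add i2) (Eventually.of_forall fun s => ?_)).trans (le_of_eq ?_)
  · rw [norm_mul, Complex.norm_exp_ofReal_mul_I, one_mul, Pi.add_apply]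
    have n1 : 0 ≤ S1.indicator (fun _ => c) s := indicator_nonneg (fun _ _ => hc0) s
    have n2 : 0 ≤ S2.indicator (fun _ => c) s := indicator_nonneg (fun _ _ => hc0) s
    by_cases h1 : s ^ 2 ≤ 9 / 16 - R⁻¹
    · have : ∫ v in Ioi (0:ℝ), pa R (s ^ 2 + v) = 0 := by
        rw [setIntegral_eq_integral_of_forall_compl_eq_zero, integral_add_left_eq_self (pa R), pa_int hR0]
        intro v hv
        simp only [mem_Ioi, not_lt] at hv
        exact hz _ (le_abs'.2 (Or.inl (by linarith)))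
      rw [this, mul_zero, norm_zero]
      positivity
    by_cases h2 : 9 / 16 + R⁻¹ ≤ s ^ 2
    · have : ∫ v in Ioi (0:ℝ), pa R (s ^ 2 + v) = 0 := by
        apply setIntegral_eq_zero_of_forall_eq_zero
        intro v hv
        simp only [mem_Ioi] at hv
        exact hz _ (le_abs'.2 (Or.inr (by linarith)))
      rw [this, mul_zero, norm_zero]
      positivity
    push Not at h1 h2
    have h3 : ‖(kap : ℂ) * ∫ v in Ioi (0:ℝ), pa R (s ^ 2 + v)‖ ≤ c := by
      rw [norm_mul, Complex.norm_real, Real.norm_of_nonneg hk, hc]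
      gcongr
      set S := Icc (9 / 16 - R⁻¹ - s ^ 2) (9 / 16 + R⁻¹ - s ^ 2) with hS
      have i3 : Integrable (S.indicator fun _ => (1:ℝ)) := (integrable_indicator_iff measurableSet_Icc).2 (by simp [hS])
      rw [← integral_indicator measurableSet_Ioi]
      refine (norm_integral_le_of_norm_le i3 (Eventually.of_forall fun v => ?_)).trans (le_of_eq ?_)
      · refine (norm_indicator_le_norm_self _ _).trans ?_
        by_cases hv : v ∈ S
        · rw [indicator_of_mem hv, norm_pa]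
          exact ph_le _
        · rw [indicator_of_notMem hv, hz, norm_zero]
          by_contra h4
          push Not at h4
          have := abs_lt.1 h4
          exact hv ⟨by linarith [this.1], by linarith [this.2]⟩
      · rw [integral_indicator measurableSet_Icc, setIntegral_const, Real.volume_real_Icc_of_le (by linarith), smul_eq_mul]
        ring
    rcases le_total 0 s with h0 | h0
    · have : s ∈ S1 := ⟨by nlinarith, by nlinarith⟩
      rw [indicator_of_mem this]
      linarith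
    · have : s ∈ S2 := ⟨by nlinarith, by nlinarith⟩
      rw [indicator_of_mem this]
      linarith
  · simp only [Pi.add_apply]
    rw [integral_add i1 i2, integral_indicator measurableSet_Icc, integral_indicator measurableSet_Icc,
      setIntegral_const, setIntegral_const, Real.volume_real_Icc_of_le (by linarith),
      Real.volume_real_Icc_of_le (by linarith), smul_eq_mul, smul_eq_mul, hc]
    field_simp
    ring

/-- waves which stay focused -/
theorem chirp_low {p α : ℝ} (hp : 2 ≤ p) {q : ℝ≥0∞} (hq : q ≠ 0) (h : Loc p q α) : 1 - 3 / p ≤ α := by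
  have hp0 : 0 < p := by linarith
  obtain ⟨C, hC, h⟩ := test hp0 hq h
  set θ := q.toReal⁻¹ with hθ
  have hpi := Real.pi_pos
  have hpi4 := Real.pi_lt_d2
  have hk := kap_nonneg
  set v : ℝ := volume.real (Metric.ball (0:E3) 1) with hv
  have hv0 : 0 < v := by
    apply ENNReal.toReal_pos
    · exact (Metric.measure_ball_pos volume 0 one_pos).ne'
    · exact measure_ball_lt_top.ne
  have hvol : ∀ (r : ℝ), 0 ≤ r → volume (Metric.ball (0:E3) r) = ENNReal.ofReal (r ^ 3 * v) := by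
    intro r hr
    rw [Measure.addHaar_ball volume 0 hr, hv, Measure.real, ENNReal.ofReal_mul (by positivity),
      ENNReal.ofReal_toReal measure_ball_lt_top.ne]
    simp
  by_contra hcon
  push Not at hcon
  refine no_decay' (K1 := ((3 / 8) * (1 / 100) ^ θ) ^ p * ((1 / 100) ^ 3 * v) * (v / 32) ^ (p - 1))
    (K2 := C ^ p * (16 * kap) ^ (p - 2)) (e := α * p - p + 3) (by positivity) ?_ ?_
  · have h3 : α * p < (1 - 3 / p) * p := by gcongr
    have h4 : (1 - 3 / p) * p = p - 3 := by field_simp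
    linarith
  intro R hR
  have hR0 : 0 < R := by linarith
  have hRi : R⁻¹ ≤ 1 / 100 := by rw [one_div]; exact inv_anti₀ (by norm_num) hR
  have hRi0 : 0 < R⁻¹ := by positivity
  set β : E3 → ℝ := fun η => ph (R * (‖η‖ ^ 2 - 9 / 16)) with hβ
  have hN : ContDiff ℝ ∞ fun η : E3 => ‖η‖ ^ 2 := contDiff_norm_sq ℝ
  have hβc : Continuous β := contDiff_ph.continuous.comp (by fun_prop)
  have hβ0 : ∀ η, 0 ≤ β η := fun η => ph_nonneg _
  have hsp : ∀ η, β η ≠ 0 → |‖η‖ - 3 / 4| ≤ R⁻¹ := by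
    intro η hη
    have h1 := abs_lt.1 (pa_supp hR0 hη)
    have hn := norm_nonneg η
    have h2 : 1 / 4 ≤ ‖η‖ := by nlinarith [h1.1]
    rw [abs_le]
    constructor <;> nlinarith [h1.1, h1.2]
  have hann : ∀ η, β η ≠ 0 → 3 / 8 ≤ ‖η‖ ∧ ‖η‖ ≤ 3 / 2 := by
    intro η hη
    have := abs_le.1 (hsp η hη)
    constructor <;> linarith [this.1, this.2]
  have hβs : HasCompactSupport β := by
    apply HasCompactSupport.of_support_subset_isCompact (isCompact_closedBall (0:E3) 2)
    intro ξ hξ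
    rw [Metric.mem_closedBall, dist_zero_right]
    linarith [(hann ξ hξ).2]
  have hβi : Integrable β := hβc.integrable_of_hasCompactSupport hβs
  have bsm : ContDiff ℝ ∞ (fun η : E3 => pa R (‖η‖ ^ 2)) := (contDiff_pa R).comp hN
  have hbn : ∀ η : E3, ‖pa R (‖η‖ ^ 2)‖ = β η := fun η => norm_pa _ _
  have hbi : Integrable fun η : E3 => pa R (‖η‖ ^ 2) :=
    hβi.mono' bsm.continuous.aestronglyMeasurable (Eventually.of_forall fun ξ => (hbn ξ).le)
  set m : ℝ := ∫ ξ, β ξ with hm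
  have hm0 : 0 ≤ m := integral_nonneg hβ0
  have hm2 : v / 32 * R⁻¹ ≤ m := by
    have h1 : ENNReal.ofReal (v / 32 * R⁻¹) ≤ ENNReal.ofReal m := by
      set d := R⁻¹ / 16 with hd
      have hd0 : 0 < d := by positivity
      have hA : volume (Metric.ball (0:E3) (3 / 4 + d) \ Metric.ball 0 (3 / 4)) =
          ENNReal.ofReal ((3 / 4 + d) ^ 3 * v - (3 / 4) ^ 3 * v) := by
        rw [measure_sdiff (Metric.ball_subset_ball (by linarith)) Metric.isOpen_ball.measurableSet.nullMeasurableSet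
          measure_ball_lt_top.ne, hvol _ (by positivity), hvol _ (by norm_num), ENNReal.ofReal_sub _ (by positivity)]
      calc ENNReal.ofReal (v / 32 * R⁻¹) ≤ ENNReal.ofReal (1 / 2 * ((3 / 4 + d) ^ 3 * v - (3 / 4) ^ 3 * v)) := by
            apply ENNReal.ofReal_le_ofReal
            have e1 : v / 32 * R⁻¹ = 1 / 2 * (d * v) := by rw [hd]; ring
            have e2 : d ≤ (3 / 4 + d) ^ 3 - (3 / 4) ^ 3 := by nlinarith [sq_nonneg d, mul_pos hd0 (mul_pos hd0 hd0)]
            rw [e1, ← sub_mul]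
            gcongr
        _ = ∫⁻ ξ in Metric.ball (0:E3) (3 / 4 + d) \ Metric.ball 0 (3 / 4), ENNReal.ofReal (1 / 2) := by
            rw [setLIntegral_const, hA, ← ENNReal.ofReal_mul (by norm_num)]
        _ ≤ ∫⁻ ξ in Metric.ball (0:E3) (3 / 4 + d) \ Metric.ball 0 (3 / 4), ENNReal.ofReal (β ξ) := by
            apply setLIntegral_mono' (Metric.isOpen_ball.measurableSet.diff Metric.isOpen_ball.measurableSet)
            intro ξ hξ
            apply ENNReal.ofReal_le_ofReal
            have k1 := hξ.1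
            have k2 := hξ.2
            rw [Metric.mem_ball, dist_zero_right] at k1 k2
            push Not at k2
            have k3 : ps (R * (‖ξ‖ ^ 2 - 9 / 16)) = 1 := by
              apply ps.one_of_mem_closedBall
              rw [Metric.mem_closedBall, Real.dist_eq, sub_zero, abs_of_nonneg (mul_nonneg hR0.le (by nlinarith))]
              show _ ≤ (1 / 8 : ℝ)
              have k4 : ‖ξ‖ ^ 2 - 9 / 16 ≤ 2 * d := by nlinarith
              calc R * (‖ξ‖ ^ 2 - 9 / 16) ≤ R * (2 * d) := by gcongr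
                _ = 1 / 8 := by rw [hd]; field_simp; norm_num
            rw [hβ]
            simp only
            unfold ph
            rw [k3]
            linarith [ps.nonneg (x := R * (‖ξ‖ ^ 2 - 9 / 16) - 3 / 4)]
        _ ≤ ∫⁻ ξ, ENNReal.ofReal (β ξ) := setLIntegral_le_lintegral _ _
        _ = _ := by rw [hm, ofReal_integral_eq_lintegral_ofReal hβi (Eventually.of_forall hβ0)]
    exact (ENNReal.ofReal_le_ofReal_iff hm0).1 h1
  have hmp : 0 < m := lt_of_lt_of_le (by positivity) hm2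
  have hL2 := Lp_bump hβc hβi hβ0 (fun ξ => ph_le _) hbn bsm.continuous.measurable
  have hLp := interp_p (pa_sup hR hbi) hL2 hp
  have h1 := h R (by linarith) _ bsm (fun η hη => hann η (by rw [← hbn]; exact norm_ne_zero_iff.2 hη))
    (Metric.ball 0 (1 / 100)) (3 / 8 * m) (R / 100) Metric.isOpen_ball.measurableSet (by positivity) (by positivity) (by
      intro y hy
      refine ⟨R, le_rfl, by linarith, fun t ht => ?_⟩
      rw [Metric.mem_ball, dist_zero_right] at hy
      set ψ : E3 → ℝ := fun ξ => 2 * Real.pi * (inner ℝ ξ y + (t - R) * (‖ξ‖ - 3 / 4) - 2 * R / 3 * (‖ξ‖ - 3 / 4) ^ 2)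
        with hψ
      set W : E3 → ℂ := fun ξ => cexp (I * (ψ ξ : ℝ)) * 1 with hW
      set c0 : ℂ := cexp (I * ((2 * Real.pi * (3 / 4 * (t - R) + 3 * R / 8) : ℝ) : ℂ)) with hc0
      have hc0n : ‖c0‖ = 1 := by rw [hc0, mul_comm, Complex.norm_exp_ofReal_mul_I]
      have e1 : 𝓕⁻ (fun ξ : E3 => cexp (2 * Real.pi * I * (t * ‖ξ‖ : ℝ)) * pa R (‖ξ‖ ^ 2)) y =
          c0 * ∫ ξ, W ξ * ((β ξ : ℝ) : ℂ) := by
        rw [Real.fourierInv_eq', ← integral_const_mul]
        congr 1
        ext ξ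
        rw [hc0, hW, hψ, smul_eq_mul, hβ]
        unfold pa
        simp only
        rw [mul_one, ← mul_assoc (cexp _), ← mul_assoc (cexp _), ← Complex.exp_add, ← mul_assoc (cexp _),
          ← Complex.exp_add, ← Complex.exp_add]
        congr 2
        push_cast
        ring
      have hWc : Continuous W := by
        rw [hW, hψ]
        fun_prop
      have hWi : Integrable fun ξ => W ξ * ((β ξ : ℝ) : ℂ) := by
        apply (hWc.mul (Complex.continuous_ofReal.comp hβc)).integrable_of_hasCompactSupport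
        exact (hβs.comp_left (g := fun r : ℝ => (r : ℂ)) (by simp)).mul_left
      have hre : ∀ ξ, β ξ ≠ 0 → (3 / 8 : ℝ) ≤ (W ξ).re := by
        intro ξ hξ
        have j0 := hsp ξ hξ
        apply re_low _ (by simp)
        have i0 : |inner ℝ ξ y| ≤ 3 / 2 * (1 / 100) := by
          refine (abs_real_inner_le_norm _ _).trans ?_
          exact mul_le_mul (hann ξ hξ).2 hy.le (norm_nonneg _) (by norm_num)
        have i1 : |(t - R) * (‖ξ‖ - 3 / 4)| ≤ 1 / 100 := by
          rw [abs_mul, abs_of_nonneg (by linarith [ht.1])]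
          calc (t - R) * |‖ξ‖ - 3 / 4| ≤ (R / 100) * R⁻¹ :=
                mul_le_mul (by linarith [ht.2]) j0 (abs_nonneg _) (by positivity)
            _ = 1 / 100 := by field_simp
        have i2 : |2 * R / 3 * (‖ξ‖ - 3 / 4) ^ 2| ≤ 2 / 3 * (1 / 100) := by
          rw [abs_of_nonneg (by positivity), ← sq_abs]
          calc 2 * R / 3 * |‖ξ‖ - 3 / 4| ^ 2 ≤ 2 * R / 3 * R⁻¹ ^ 2 := by gcongr
            _ = 2 / 3 * R⁻¹ := by field_simp
            _ ≤ _ := by gcongr
        rw [hψ]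
        simp only
        rw [abs_mul, abs_of_pos (by positivity : 0 < 2 * Real.pi)]
        have h7 : |inner ℝ ξ y + (t - R) * (‖ξ‖ - 3 / 4) - 2 * R / 3 * (‖ξ‖ - 3 / 4) ^ 2| ≤
            3 / 2 * (1 / 100) + 1 / 100 + 2 / 3 * (1 / 100) :=
          (abs_sub _ _).trans (add_le_add ((abs_add_le _ _).trans (add_le_add i0 i1)) i2)
        calc _ ≤ 2 * 3.15 * (3 / 2 * (1 / 100) + 1 / 100 + 2 / 3 * (1 / 100)) :=
              mul_le_mul (by linarith) h7 (abs_nonneg _) (by norm_num)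
          _ ≤ 1 / 4 := by norm_num
      have h9 := low_int hβi hβ0 hWi hre hc0n
      rw [← e1] at h9
      exact h9)
  have h2 := h1.trans (mul_le_mul' le_rfl hLp)
  rw [hvol _ (by norm_num), ← ENNReal.ofReal_mul (by positivity), ← ENNReal.ofReal_mul (by positivity),
    ← ENNReal.ofReal_mul (by positivity)] at h2
  have h3 := (ENNReal.ofReal_le_ofReal_iff (by positivity)).1 h2
  have e1 : (3 / 8 * m * (R / 100) ^ θ) ^ p = ((3 / 8) * (1 / 100) ^ θ) ^ p * (m ^ (p - 1) * m) * (R ^ θ) ^ p := by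
    have e2 : m ^ p = m ^ (p - 1) * m := by
      conv_lhs => rw [show p = (p - 1) + 1 by ring]
      rw [Real.rpow_add hmp, Real.rpow_one]
    have e3 : (R / 100) ^ θ = (1 / 100) ^ θ * R ^ θ := by
      rw [← Real.mul_rpow (by norm_num) hR0.le]
      congr 1
      ring
    rw [← e2, ← Real.mul_rpow (by positivity) hm0, ← Real.mul_rpow (by positivity) (by positivity), e3]
    congr 1
    ring
  have e4 : (C * R ^ (α + θ)) ^ p * (16 * kap * (R ^ 2)⁻¹) ^ (p - 2) =
      C ^ p * (16 * kap) ^ (p - 2) * R ^ (α * p - p + 3) * ((R ^ θ) ^ p * R⁻¹ ^ (p - 1)) := by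
    have a1 : (R ^ 2)⁻¹ = R ^ (-2:ℝ) := by rw [Real.rpow_neg hR0.le, Real.rpow_two]
    rw [Real.mul_rpow hC (by positivity), Real.mul_rpow (x := 16 * kap) (by positivity) (by positivity), a1,
      ← Real.rpow_neg_one R, ← Real.rpow_mul hR0.le, ← Real.rpow_mul hR0.le, ← Real.rpow_mul hR0.le,
      ← Real.rpow_mul hR0.le]
    have a2 : R ^ ((α + θ) * p) * R ^ (-2 * (p - 2)) = R ^ (α * p - p + 3) * (R ^ (θ * p) * R ^ (-1 * (p - 1))) := by
      rw [← Real.rpow_add hR0, ← Real.rpow_add hR0, ← Real.rpow_add hR0]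
      congr 1
      ring
    calc _ = C ^ p * (16 * kap) ^ (p - 2) * (R ^ ((α + θ) * p) * R ^ (-2 * (p - 2))) := by ring
      _ = _ := by rw [a2]; ring
  rw [e1, ← hm, ← mul_assoc ((C * R ^ (α + θ)) ^ p), e4] at h3
  have e5 : (v / 32) ^ (p - 1) * R⁻¹ ^ (p - 1) ≤ m ^ (p - 1) := by
    rw [← Real.mul_rpow (by positivity) hRi0.le]
    exact Real.rpow_le_rpow (by positivity) hm2 (by linarith)
  set Y : ℝ := ((3 / 8) * (1 / 100) ^ θ) ^ p with hY
  have hY0 : 0 < Y := by positivity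
  set Z : ℝ := (R ^ θ) ^ p * R⁻¹ ^ (p - 1) * m with hZ
  have hZ0 : 0 < Z := by positivity
  have h4 : Z * (Y * ((1 / 100) ^ 3 * v) * (v / 32) ^ (p - 1)) ≤
      Z * (C ^ p * (16 * kap) ^ (p - 2) * R ^ (α * p - p + 3)) := by
    calc Z * (Y * ((1 / 100) ^ 3 * v) * (v / 32) ^ (p - 1)) =
          Y * (((v / 32) ^ (p - 1) * R⁻¹ ^ (p - 1)) * m) * (R ^ θ) ^ p * ((1 / 100) ^ 3 * v) := by rw [hZ]; ring
      _ ≤ Y * (m ^ (p - 1) * m) * (R ^ θ) ^ p * ((1 / 100) ^ 3 * v) := by gcongr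
      _ ≤ _ := h3.trans (le_of_eq (by rw [hZ]; ring))
  exact le_of_mul_le_mul_left h4 hZ0

end Vale.Agent.N106
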