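import Vale.Agent.P106.Z.Question1
import Vale.Agent.N106.E

/-!
# P106 : local smoothing in three space dimensions, sharp mixed norm and maximal estimates

The sharp exponent of the estimates in `L^p_x L^q_t` for all `1 ≤ q ≤ ∞`, for the half-wave evolution and for the
wave equation. (Former hand-in `A0Mixed`, withdrawn; kept as a helper file.)
-/

set_option autoImplicit false

open scoped ENNReal

namespace Vale.Agent.N106.OldMixed

open Vale.Agent.N106.D

/-- **Theorem.** For `2 < p < ∞` and `1 ≤ q ≤ ∞` the mixed norm estimates for the half-wave evolution and for the wave equation hold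
on every compact time interval if `α > max 0 (1 - 3/p) + max 0 (1/p - 1/q)`, and both fail on `[1,2]` if `α` is smaller
than this number. -/
theorem mixed :
    ∀ (p : ℝ) (q : ℝ≥0∞) (α : ℝ), 2 < p → 1 ≤ q →
      (max 0 (1 - 3 / p) + max 0 (1 / p - (1 / q).toReal) < α →
        ∀ a b : ℝ, Mixed R3 p q α a b ∧ Wave R3 p q α a b) ∧
      (α < max 0 (1 - 3 / p) + max 0 (1 / p - (1 / q).toReal) → ¬ Mixed R3 p q α 1 2 ∧ ¬ Wave R3 p q α 1 2) :=
  (Vale.Agent.N106.all_of_question1 Vale.Agent.P106.Z.question1).2.2

end Vale.Agent.N106.OldMixed
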